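import Mathlib

/-! # P227: Alexandrov's theorem, the gradient of a convex function is differentiable a.e. -/

open MeasureTheory Set Filter Topology Metric
open scoped NNReal ENNReal

namespace Vale.Agent.N227

variable {E : Type*} [NormedAddCommGroup E] [InnerProductSpace ℝ E] [FiniteDimensional ℝ E]

/-- `p` is a subgradient of `a` at `y` -/
def IsSub (a : E → ℝ) (p y : E) : Prop := ∀ z, a y + inner ℝ p (z - y) ≤ a z

theorem inner_gradient (a : E → ℝ) (y v : E) : inner ℝ (gradient a y) v = fderiv ℝ a y v := by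
  simp [gradient]

theorem grad_sub {a : E → ℝ} (ha : ConvexOn ℝ univ a) {y : E} (hd : DifferentiableAt ℝ a y) :
    IsSub a (gradient a y) y := by
  intro z
  rw [inner_gradient]
  set g : ℝ → ℝ := fun t => a (y + t • (z - y)) with hg
  have hgc : ConvexOn ℝ univ g := by
    have := ha.comp_affineMap (AffineMap.lineMap y z)
    rw [preimage_univ] at this
    have e : g = a ∘ AffineMap.lineMap y z := by
      funext t
      simp only [hg, Function.comp_apply, AffineMap.lineMap_apply, vsub_eq_sub, vadd_eq_add]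
      rw [add_comm]
    rw [e]
    exact this
  have hgd : HasDerivAt g (fderiv ℝ a y (z - y)) 0 := hd.hasFDerivAt.hasLineDerivAt (z - y)
  have h := hgc.le_slope_of_hasDerivAt (mem_univ 0) (mem_univ 1) one_pos hgd
  rw [slope_def_field] at h
  simp only [hg, one_smul, zero_smul, add_zero, sub_zero, div_one, add_sub_cancel] at h
  linarith

omit [FiniteDimensional ℝ E] in
theorem IsSub.mono {a : E → ℝ} {p y p' y' : E} (h : IsSub a p y) (h' : IsSub a p' y') :
    0 ≤ inner ℝ (p - p') (y - y') := by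
  have h1 := h y'
  have h2 := h' y
  have e : y' - y = -(y - y') := by abel
  rw [e, inner_neg_right] at h1
  rw [inner_sub_left]
  linarith

theorem exists_prox {a : E → ℝ} (ha : ConvexOn ℝ univ a) (h0 : ∀ y, 0 ≤ a y) (hc : Continuous a)
    (z : E) : ∃ y, IsSub a (z - y) y := by
  set G : E → ℝ := fun y => a y + ‖y - z‖ ^ 2 / 2 with hG
  have hGc : Continuous G := by fun_prop
  obtain ⟨y, -, hy⟩ := (isCompact_closedBall z (a z + 2)).exists_isMinOn
    ⟨z, mem_closedBall_self (by linarith [h0 z])⟩ hGc.continuousOn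
  have hmin : ∀ w, G y ≤ G w := by
    intro w
    by_cases hw : w ∈ closedBall z (a z + 2)
    · exact hy hw
    · have h1 : G y ≤ G z := hy (mem_closedBall_self (by linarith [h0 z]))
      rw [mem_closedBall, dist_eq_norm, not_le] at hw
      have h2 : G z = a z := by simp [hG]
      have h3 := h0 w
      have h4 := h0 z
      simp only [hG]
      simp only [hG] at h1 h2
      nlinarith
  refine ⟨y, fun w => ?_⟩
  have key : ∀ s : ℝ, 0 < s → s ≤ 1 →
      a y + inner ℝ (z - y) (w - y) ≤ a w + s * (‖w - y‖ ^ 2 / 2) := by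
    intro s hs hs1
    have h1 := hmin ((1 - s) • y + s • w)
    have h2 := ha.2 (mem_univ y) (mem_univ w) (by linarith : 0 ≤ 1 - s) hs.le (by ring)
    have e : (1 - s) • y + s • w - z = (y - z) + s • (w - y) := by
      rw [smul_sub, sub_smul, one_smul]; abel
    have e2 : ‖(1 - s) • y + s • w - z‖ ^ 2 =
        ‖y - z‖ ^ 2 - 2 * s * inner ℝ (z - y) (w - y) + s ^ 2 * ‖w - y‖ ^ 2 := by
      rw [e, norm_add_sq_real, inner_smul_right, norm_smul, mul_pow, Real.norm_eq_abs, sq_abs,
        show z - y = -(y - z) by abel, inner_neg_left]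
      ring
    simp only [hG, smul_eq_mul] at h1 h2
    rw [e2] at h1
    have h3 : s * (a y + inner ℝ (z - y) (w - y)) ≤ s * (a w + s * (‖w - y‖ ^ 2 / 2)) := by
      nlinarith
    exact le_of_mul_le_mul_left h3 hs
  have ht : Tendsto (fun s : ℝ => a w + s * (‖w - y‖ ^ 2 / 2)) (𝓝[>] 0)
      (𝓝 (a w + 0 * (‖w - y‖ ^ 2 / 2))) :=
    (tendsto_const_nhds.add (tendsto_id.mul_const _)).mono_left nhdsWithin_le_nhds
  rw [zero_mul, add_zero] at ht
  refine ge_of_tendsto ht ?_
  filter_upwards [Ioc_mem_nhdsGT (show (0 : ℝ) < 1 by norm_num)] with s hs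
  exact key s hs.1 hs.2

omit [FiniteDimensional ℝ E] in
theorem prox_dist {a : E → ℝ} {z y z' y' : E} (h : IsSub a (z - y) y) (h' : IsSub a (z' - y') y') :
    ‖y - y'‖ ≤ ‖z - z'‖ := by
  have h1 := h.mono h'
  have e : z - y - (z' - y') = (z - z') - (y - y') := by abel
  rw [e, inner_sub_left, real_inner_self_eq_norm_sq] at h1
  have h2 := real_inner_le_norm (z - z') (y - y')
  by_contra hlt
  rw [not_le] at hlt
  have h3 : 0 < ‖y - y'‖ := lt_of_le_of_lt (norm_nonneg _) hlt
  nlinarith

/-- the gradient is continuous at a point of differentiability, along such points -/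
theorem grad_tendsto {a : E → ℝ} (ha : ConvexOn ℝ univ a) {y : E}
    (hd : DifferentiableAt ℝ a y) :
    Tendsto (gradient a) (𝓝[{z | DifferentiableAt ℝ a z}] y) (𝓝 (gradient a y)) := by
  rw [Metric.tendsto_nhdsWithin_nhds]
  intro ε hε
  have h1 := hd.hasFDerivAt.isLittleO.def (show 0 < ε / 4 by linarith)
  obtain ⟨δ, hδ, hδ'⟩ := Metric.eventually_nhds_iff.1 h1
  refine ⟨δ / 2, by linarith, fun y' hy' hdist => ?_⟩
  rw [dist_eq_norm] at hdist ⊢
  set p := gradient a y
  set p' := gradient a y'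
  by_contra hlt
  rw [not_lt] at hlt
  have hpos : 0 < ‖p' - p‖ := lt_of_lt_of_le hε hlt
  set e : E := (δ / 2 / ‖p' - p‖) • (p' - p) with he
  have hne : ‖e‖ = δ / 2 := by
    rw [he, norm_smul, Real.norm_eq_abs, abs_of_pos (by positivity)]
    field_simp
  have hw : dist (y' + e) y < δ := by
    rw [dist_eq_norm]
    calc ‖y' + e - y‖ = ‖(y' - y) + e‖ := by congr 1; abel
      _ ≤ ‖y' - y‖ + ‖e‖ := norm_add_le _ _
      _ < δ := by rw [hne]; linarith
  have h2 := hδ' hw
  have h3 := grad_sub ha hy' (y' + e)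
  have h4 := grad_sub ha hd y'
  rw [← inner_gradient, Real.norm_eq_abs] at h2
  have h5 := (abs_le.1 h2).2
  rw [dist_eq_norm] at hw
  have e1 : y' + e - y' = e := by abel
  have e2 : y' + e - y = (y' - y) + e := by abel
  rw [e1] at h3
  rw [e2, inner_add_right] at h5
  rw [e2] at hw
  have h6 : inner ℝ (p' - p) e = δ / 2 * ‖p' - p‖ := by
    rw [he, inner_smul_right, real_inner_self_eq_norm_sq]
    field_simp
  rw [inner_sub_left] at h6
  change a y' + inner ℝ p' e ≤ _ at h3
  change a y + inner ℝ p (y' - y) ≤ _ at h4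
  change _ - _ - (inner ℝ p (y' - y) + inner ℝ p e) ≤ _ at h5
  have h7 : ε / 4 * ‖y' - y + e‖ ≤ ε / 4 * δ := mul_le_mul_of_nonneg_left hw.le (by linarith)
  nlinarith

variable [MeasurableSpace E] [BorelSpace E] (μ : Measure E) [μ.IsAddHaarMeasure]

theorem lip_image_null {f : E → E} {C : ℝ≥0} (hf : LipschitzWith C f) {s : Set E}
    (hs : μ s = 0) : μ (f '' s) = 0 := by
  have h1 : μ ≪ (μH[Module.finrank ℝ E] : Measure E) :=
    Measure.absolutelyContinuous_isAddHaarMeasure _ _
  have h2 : (μH[Module.finrank ℝ E] : Measure E) ≪ μ :=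
    Measure.absolutelyContinuous_isAddHaarMeasure _ _
  apply h1
  have h3 := hf.hausdorffMeasure_image_le (d := (Module.finrank ℝ E : ℝ)) (by positivity) s
  rw [h2 hs, mul_zero] at h3
  exact le_antisymm h3 zero_le

/-- Alexandrov's theorem -/
theorem alexandrov {a : E → ℝ} (ha : ConvexOn ℝ univ a) (h0 : ∀ y, 0 ≤ a y) (hc : Continuous a) :
    ∀ᵐ y ∂μ, DifferentiableAt ℝ a y → ∃ H : E →L[ℝ] E,
      HasFDerivWithinAt (gradient a) H {z | DifferentiableAt ℝ a z} y := by
  choose J hJ using exists_prox ha h0 hc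
  have hlip : LipschitzWith 1 J := by
    apply LipschitzWith.of_dist_le_mul
    intro z z'
    rw [dist_eq_norm, dist_eq_norm, NNReal.coe_one, one_mul]
    exact prox_dist (hJ z) (hJ z')
  have hinv : ∀ y, DifferentiableAt ℝ a y → J (y + gradient a y) = y := by
    intro y hy
    have h1 : IsSub a (y + gradient a y - y) y := by
      rw [add_sub_cancel_left]; exact grad_sub ha hy
    have h2 := prox_dist (hJ (y + gradient a y)) h1
    rw [sub_self, norm_zero] at h2
    exact sub_eq_zero.1 (norm_le_zero_iff.1 h2)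
  have n1 : μ (J '' {z | ¬ DifferentiableAt ℝ J z}) = 0 :=
    lip_image_null μ hlip (ae_iff.1 hlip.ae_differentiableAt)
  have n2 : μ (J '' {z | DifferentiableAt ℝ J z ∧ (fderiv ℝ J z).det = 0}) = 0 :=
    addHaar_image_eq_zero_of_det_fderivWithin_eq_zero μ (f' := fderiv ℝ J)
      (fun z hz => hz.1.hasFDerivAt.hasFDerivWithinAt) (fun z hz => hz.2)
  filter_upwards [measure_eq_zero_iff_ae_notMem.1 n1, measure_eq_zero_iff_ae_notMem.1 n2]
    with y h1 h2 hy
  set g : E → E := fun y => y + gradient a y with hg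
  have hd : DifferentiableAt ℝ J (g y) := by
    by_contra hn
    exact h1 ⟨g y, hn, hinv y hy⟩
  have hdet : (fderiv ℝ J (g y)).det ≠ 0 := fun hz => h2 ⟨g y, ⟨hd, hz⟩, hinv y hy⟩
  set A := (fderiv ℝ J (g y)).toContinuousLinearEquivOfDetNeZero hdet with hA
  have hJd : HasFDerivWithinAt J (A : E →L[ℝ] E) univ (g y) := by
    rw [hA, ContinuousLinearMap.coe_toContinuousLinearEquivOfDetNeZero]
    exact hd.hasFDerivAt.hasFDerivWithinAt
  have htend : Tendsto g (𝓝[{z | DifferentiableAt ℝ a z}] y) (𝓝[univ] (g y)) := by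
    rw [nhdsWithin_univ]
    exact (tendsto_id.mono_left nhdsWithin_le_nhds).add (grad_tendsto ha hy)
  have hgd := HasFDerivWithinAt.of_local_left_inverse htend hJd hy
    (by filter_upwards [self_mem_nhdsWithin] with z hz using hinv z hz)
  refine ⟨(A.symm : E →L[ℝ] E) - ContinuousLinearMap.id ℝ E, ?_⟩
  have := hgd.sub (hasFDerivWithinAt_id y {z | DifferentiableAt ℝ a z})
  convert this using 1
  ext z
  simp [hg]

end Vale.Agent.N227
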