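import Vale.Agent.P227.H368.LpM

/-! # P227: first variation of the volume of Wulff bodies; equality in the logarithmic
Brunn-Minkowski inequality in terms of cone-volume measures -/

open MeasureTheory Set Metric Filter Topology
open scoped ENNReal NNReal Pointwise

namespace Vale.Agent.N227

open Vale.Agent.P227 Vale.Agent.P227.H368

variable {n : ℕ}

theorem sphere_bound {φ : EV n → ℝ} (hφ : Continuous φ) :
    ∃ B : ℝ, 0 ≤ B ∧ ∀ u : EV n, ‖u‖ = 1 → |φ u| ≤ B := by
  obtain ⟨B, hB⟩ := (isCompact_sphere (0 : EV n) 1).exists_bound_of_continuousOn hφ.continuousOn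
  refine ⟨max B 0, le_max_right _ _, fun u hu => ?_⟩
  have := hB u (mem_sphere_zero_iff_norm.2 hu)
  rw [Real.norm_eq_abs] at this
  exact this.trans (le_max_left _ _)

/-- the perturbed function `h_K exp(-ε φ)` -/
noncomputable def prt (K : Set (EV n)) (φ : EV n → ℝ) (ε : ℝ) (u : EV n) : ℝ :=
  supportFn K u * Real.exp (-(ε * φ u))

theorem prt_facts {K : Set (EV n)} (hK : SymConvexBody K) {φ : EV n → ℝ} (hφ : Continuous φ)
    (he : ∀ u, φ (-u) = φ u) (ε : ℝ) :
    ∃ a b : ℝ, 0 < a ∧ (∀ u, ‖u‖ = 1 → a ≤ prt K φ ε u) ∧ (∀ u, ‖u‖ = 1 → prt K φ ε u ≤ b) ∧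
      (∀ u, prt K φ ε (-u) = prt K φ ε u) ∧ ContinuousOn (prt K φ ε) (sphere 0 1) := by
  have hcont : ContinuousOn (prt K φ ε) (sphere 0 1) := by
    apply ContinuousOn.mul hK.continuous_supportFn.continuousOn
    apply Real.continuous_exp.comp_continuousOn
    exact (continuousOn_const.mul hφ.continuousOn).neg
  obtain ⟨r, hr0, hr⟩ := hK.exists_ball
  obtain ⟨R, hR0, hR⟩ := hK.exists_bound
  obtain ⟨B, hB0, hB⟩ := sphere_bound hφ
  have hexp : ∀ u : EV n, ‖u‖ = 1 → |ε * φ u| ≤ |ε| * B := by
    intro u hu
    rw [abs_mul]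
    exact mul_le_mul_of_nonneg_left (hB u hu) (abs_nonneg _)
  refine ⟨r * Real.exp (-(|ε| * B)), R * Real.exp (|ε| * B), by positivity, ?_, ?_, ?_, hcont⟩
  · intro u hu
    have h1 := SymConvexBody.supportFn_ge hr0 hK.isCompact hr u
    rw [hu, mul_one] at h1
    apply mul_le_mul h1 _ (Real.exp_pos _).le (by linarith)
    apply Real.exp_le_exp.2
    have := (abs_le.1 (hexp u hu)).2
    linarith
  · intro u hu
    have h1 := hK.supportFn_le_norm hR u
    rw [hu, mul_one] at h1
    apply mul_le_mul h1 _ (Real.exp_pos _).le hR0.le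
    apply Real.exp_le_exp.2
    have := (abs_le.1 (hexp u hu)).1
    linarith
  · intro u
    unfold prt
    rw [hK.supportFn_neg, he]

/-- the perturbed Wulff body -/
noncomputable def pbd (K : Set (EV n)) (φ : EV n → ℝ) (ε : ℝ) : Set (EV n) := wulff (prt K φ ε)

theorem pbd_scb {K : Set (EV n)} (hK : SymConvexBody K) {φ : EV n → ℝ} (hφ : Continuous φ)
    (he : ∀ u, φ (-u) = φ u) (ε : ℝ) : SymConvexBody (pbd K φ ε) := by
  obtain ⟨a, b, ha, h1, h2, h3, h4⟩ := prt_facts hK hφ he ε
  exact wulff_symConvexBody ha h1 h2 h3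

theorem pbd_gauge (hn : 0 < n) {K : Set (EV n)} (hK : SymConvexBody K) {φ : EV n → ℝ}
    (hφ : Continuous φ) (he : ∀ u, φ (-u) = φ u) (ε : ℝ) {x : EV n} (hx : x ≠ 0) :
    (∀ v : EV n, ‖v‖ = 1 → inner ℝ x v = gauge K x * supportFn K v →
      ε * φ v ≤ Real.log (gauge (pbd K φ ε) x) - Real.log (gauge K x)) ∧
    ∃ u : EV n, ‖u‖ = 1 ∧ Real.log (gauge (pbd K φ ε) x) - Real.log (gauge K x) =
      Real.log (inner ℝ x u / (gauge K x * supportFn K u)) + ε * φ u ∧
      0 < inner ℝ x u ∧ inner ℝ x u ≤ gauge K x * supportFn K u := by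
  obtain ⟨a, b, ha, h1, h2, h3, h4⟩ := prt_facts hK hφ he ε
  have hP := pbd_scb hK hφ he ε
  have hg := hK.gauge_pos hx
  have hgP := hP.gauge_pos hx
  obtain ⟨hle, u, hu, hxu⟩ := gauge_wulff_attained hn h4 ha h1 h2 h3 x
  change ∀ u : EV n, ‖u‖ = 1 → inner ℝ x u ≤ gauge (pbd K φ ε) x * prt K φ ε u at hle
  change inner ℝ x u = gauge (pbd K φ ε) x * prt K φ ε u at hxu
  constructor
  · intro v hv hxv
    have hKv := hK.supportFn_pos (ne_zero_of_norm_one hv)
    have h5 := hle v hv
    rw [hxv, prt] at h5
    have h6 := Real.log_le_log (by positivity) h5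
    rw [Real.log_mul hg.ne' hKv.ne', Real.log_mul hgP.ne' (by positivity),
      Real.log_mul hKv.ne' (Real.exp_pos _).ne', Real.log_exp] at h6
    linarith
  · have hKu := hK.supportFn_pos (ne_zero_of_norm_one hu)
    have hpos : 0 < inner ℝ x u := by
      rw [hxu]
      exact mul_pos hgP (lt_of_lt_of_le ha (h1 u hu))
    refine ⟨u, hu, ?_, hpos, (hK.exists_normal hn x).1 u hu⟩
    rw [Real.log_div hpos.ne' (by positivity), hxu, prt,
      Real.log_mul hgP.ne' (by positivity), Real.log_mul hKu.ne' (Real.exp_pos _).ne',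
      Real.log_exp, Real.log_mul hg.ne' hKu.ne']
    ring

theorem pbd_tendsto (hn : 0 < n) {K : Set (EV n)} (hK : SymConvexBody K) {φ : EV n → ℝ}
    (hφ : Continuous φ) (he : ∀ u, φ (-u) = φ u) {x : EV n} (hx : x ≠ 0) {v : EV n}
    (hv : ‖v‖ = 1) (hxv : inner ℝ x v = gauge K x * supportFn K v)
    (huniq : ∀ w : EV n, ‖w‖ = 1 → inner ℝ x w = gauge K x * supportFn K w → w = v)
    (ε : ℕ → ℝ) (hε : ∀ k, 0 < ε k) (hε0 : Tendsto ε atTop (𝓝 0)) :
    Tendsto (fun k => (Real.log (gauge (pbd K φ (ε k)) x) - Real.log (gauge K x)) / ε k) atTop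
      (𝓝 (φ v)) := by
  have hg := hK.gauge_pos hx
  obtain ⟨B, hB0, hB⟩ := sphere_bound hφ
  choose hlow u hu heq hpos hle using fun k => pbd_gauge hn hK hφ he (ε k) hx
  set c : EV n → ℝ := fun w => inner ℝ x w / (gauge K x * supportFn K w) with hc
  have hccont : ContinuousOn c (sphere 0 1) := by
    apply ContinuousOn.div (by fun_prop)
    · exact continuousOn_const.mul hK.continuous_supportFn.continuousOn
    · intro w hw
      have := hK.supportFn_pos (ne_zero_of_norm_one (mem_sphere_zero_iff_norm.1 hw))
      positivity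
  have hcu_le : ∀ k, c (u k) ≤ 1 := by
    intro k
    have := hK.supportFn_pos (ne_zero_of_norm_one (hu k))
    rw [hc]
    simp only
    rw [div_le_one (by positivity)]
    exact hle k
  have hcu_pos : ∀ k, 0 < c (u k) := by
    intro k
    have := hK.supportFn_pos (ne_zero_of_norm_one (hu k))
    have := hpos k
    simp only [hc]
    positivity
  have hcu_ge : ∀ k, Real.exp (-(2 * B * ε k)) ≤ c (u k) := by
    intro k
    rw [← Real.le_log_iff_exp_le (hcu_pos k)]
    have h1 := hlow k v hv hxv
    rw [heq k] at h1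
    have h2 := (abs_le.1 (hB v hv)).1
    have h3 := (abs_le.1 (hB (u k) (hu k))).2
    have hk := hε k
    change _ ≤ Real.log (c (u k)) + _ at h1
    nlinarith
  have hcu_tendsto : Tendsto (fun k => c (u k)) atTop (𝓝 1) := by
    apply tendsto_of_tendsto_of_tendsto_of_le_of_le _ tendsto_const_nhds hcu_ge hcu_le
    have : Tendsto (fun k => Real.exp (-(2 * B * ε k))) atTop (𝓝 (Real.exp (-(2 * B * 0)))) := by
      apply (Real.continuous_exp.tendsto _).comp
      exact (tendsto_const_nhds.mul hε0).neg
    simpa using this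
  have hutend : Tendsto u atTop (𝓝 v) := by
    apply (isCompact_sphere (0 : EV n) 1).tendsto_nhds_of_unique_mapClusterPt
    · exact Filter.Eventually.of_forall fun k => mem_sphere_zero_iff_norm.2 (hu k)
    · intro w hw hclus
      have hw1 : ‖w‖ = 1 := mem_sphere_zero_iff_norm.1 hw
      apply huniq w hw1
      have hpw := hK.supportFn_pos (ne_zero_of_norm_one hw1)
      have hcw : c w = 1 := by
        obtain ⟨φ, hφ, hφt⟩ := MapClusterPt.tendsto_subseq hclus
        have h1 : Tendsto (fun k => c (u (φ k))) atTop (𝓝 (c w)) := by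
          have h2 : Tendsto (fun k => u (φ k)) atTop (𝓝[sphere 0 1] w) := by
            rw [tendsto_nhdsWithin_iff]
            exact ⟨hφt, Filter.Eventually.of_forall fun k =>
              mem_sphere_zero_iff_norm.2 (hu (φ k))⟩
          exact (hccont w hw).tendsto.comp h2
        have h3 : Tendsto (fun k => c (u (φ k))) atTop (𝓝 1) :=
          hcu_tendsto.comp hφ.tendsto_atTop
        exact tendsto_nhds_unique h1 h3
      rw [hc] at hcw
      simp only at hcw
      rwa [div_eq_one_iff_eq (by positivity)] at hcw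
  have hφtend : Tendsto (fun k => φ (u k)) atTop (𝓝 (φ v)) := (hφ.tendsto v).comp hutend
  apply tendsto_of_tendsto_of_tendsto_of_le_of_le tendsto_const_nhds hφtend
  · intro k
    simp only
    rw [le_div_iff₀ (hε k)]
    have := hlow k v hv hxv
    linarith
  · intro k
    simp only
    rw [div_le_iff₀ (hε k), heq k]
    have h1 : Real.log (inner ℝ x (u k) / (gauge K x * supportFn K (u k))) ≤ 0 :=
      Real.log_nonpos (hcu_pos k).le (hcu_le k)
    linarith

/-- lower first variation of the volume of Wulff bodies -/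
theorem variation (hn : 0 < n) {K : Set (EV n)} (hK : SymConvexBody K) {φ : EV n → ℝ}
    (hφ : Continuous φ) (he : ∀ u, φ (-u) = φ u) (ε : ℕ → ℝ) (hεpos : ∀ k, 0 < ε k)
    (hε0 : Tendsto ε atTop (𝓝 0)) :
    ∃ I : ℕ → ℝ, Tendsto I atTop (𝓝 (∫ u, φ u ∂(coneVol K))) ∧
      ∀ k, evol K - n * ε k * I k ≤ evol (pbd K φ (ε k)) := by
  have hKpos := evol_pos hK
  have hn' : (0 : ℝ) < n := by exact_mod_cast hn
  obtain ⟨B, hB0, hB⟩ := sphere_bound hφ
  set F : ℕ → EV n → ℝ := fun k x =>
    (Real.log (gauge (pbd K φ (ε k)) x) - Real.log (gauge K x)) / ε k with hF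
  set ρ : Measure (EV n) := volume.restrict (interior K) with hρ
  have : Nontrivial (EV n) := by
    have : 0 < Module.finrank ℝ (EV n) := by rw [finrank_euclideanSpace_fin]; exact hn
    exact Module.nontrivial_of_finrank_pos this
  have hfinK : volume (interior K) ≠ ∞ := by
    rw [evol_interior hK]; exact hK.isCompact.measure_lt_top.ne
  have : IsFiniteMeasure ρ := ⟨by rw [hρ, Measure.restrict_apply_univ]; exact hfinK.lt_top⟩
  have hne0 : ∀ᵐ x ∂ρ, x ≠ 0 := by
    apply ae_restrict_of_ae
    rw [ae_iff]
    simp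
  have hFb : ∀ k, ∀ x : EV n, x ≠ 0 → |F k x| ≤ B := by
    intro k x hx
    obtain ⟨hlow, u, hu, heq, hpos, hle⟩ := pbd_gauge hn hK hφ he (ε k) hx
    obtain ⟨_, w, hw, hxw⟩ := hK.exists_normal hn x
    have h1 := hlow w hw hxw
    have h2 := (abs_le.1 (hB w hw)).1
    have h3 := (abs_le.1 (hB u hu)).2
    have hku := hK.supportFn_pos (ne_zero_of_norm_one hu)
    have hg := hK.gauge_pos hx
    have h4 : Real.log (inner ℝ x u / (gauge K x * supportFn K u)) ≤ 0 := by
      apply Real.log_nonpos (by positivity)
      rw [div_le_one (by positivity)]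
      exact hle
    have hk := hεpos k
    rw [abs_le]
    constructor
    · rw [hF]
      simp only
      rw [le_div_iff₀ hk]
      nlinarith
    · rw [hF]
      simp only
      rw [div_le_iff₀ hk, heq]
      nlinarith
  have hFm : ∀ k, Measurable (F k) := by
    intro k
    have hP := pbd_scb hK hφ he (ε k)
    exact ((Real.measurable_log.comp hP.continuous_gauge.measurable).sub
      (Real.measurable_log.comp hK.continuous_gauge.measurable)).div_const _
  refine ⟨fun k => ∫ x, F k x ∂ρ, ?_, fun k => ?_⟩
  · have haeν : ∀ᵐ x ∂ρ, ‖outerNormal K x‖ = 1 ∧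
        inner ℝ x (outerNormal K x) = gauge K x * supportFn K (outerNormal K x) :=
      ae_restrict_of_ae_restrict_of_subset interior_subset (ae_outerNormal hn hK)
    have hint : ∫ u, φ u ∂(coneVol K) = ∫ x, φ (outerNormal K x) ∂ρ := by
      rw [coneVol, integral_map (measurable_outerNormal K).aemeasurable
        hφ.aestronglyMeasurable]
      have hae : (interior K : Set (EV n)) =ᵐ[volume] K := by
        apply ae_eq_of_subset_of_measure_ge interior_subset (evol_interior hK).ge
        · exact isOpen_interior.measurableSet.nullMeasurableSet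
        · exact hK.isCompact.measure_lt_top.ne
      rw [← setIntegral_congr_set hae]
    rw [hint]
    apply tendsto_integral_of_dominated_convergence (fun _ => B)
    · exact fun k => (hFm k).aestronglyMeasurable
    · exact integrable_const _
    · intro k
      filter_upwards [hne0] with x hx
      rw [Real.norm_eq_abs]
      exact hFb k x hx
    · filter_upwards [hne0, haeν, ae_restrict_of_ae hK.ae_differentiable] with x hx hνx hd
      exact pbd_tendsto hn hK hφ he hx hνx.1 hνx.2
        (fun w hw hxw => hK.normal_unique hn hd hw hνx.1 hxw hνx.2) ε hεpos hε0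
  · have hP := pbd_scb hK hφ he (ε k)
    have hk := hεpos k
    have hInt : Integrable (F k) ρ := by
      apply Integrable.of_bound (hFm k).aestronglyMeasurable B
      filter_upwards [hne0] with x hx
      rw [Real.norm_eq_abs]
      exact hFb k x hx
    have h1 : evol (pbd K φ (ε k)) =
        ∫ x, (gauge K x / gauge (pbd K φ (ε k)) x) ^ n ∂ρ := by
      rw [evol, evol_eq_integral hn hK hP, integral_eq_lintegral_of_nonneg_ae]
      · apply Filter.Eventually.of_forall
        intro x
        exact pow_nonneg (div_nonneg (gauge_nonneg _) (gauge_nonneg _)) _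
      · exact ((hK.continuous_gauge.measurable.div
          hP.continuous_gauge.measurable).pow_const _).aestronglyMeasurable
    have hpt : ∀ x : EV n, x ≠ 0 → (gauge K x / gauge (pbd K φ (ε k)) x) ^ n =
        Real.exp (-(n * ε k * F k x)) := by
      intro x hx
      have p1 := hK.gauge_pos hx
      have p2 := hP.gauge_pos hx
      rw [← Real.exp_log (div_pos p1 p2), ← Real.exp_nat_mul, Real.log_div p1.ne' p2.ne']
      congr 1
      simp only [hF]
      field_simp
      ring
    have hInt2 : Integrable (fun x => (gauge K x / gauge (pbd K φ (ε k)) x) ^ n) ρ := by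
      apply Integrable.of_bound (C := Real.exp (n * ε k * B))
      · exact ((hK.continuous_gauge.measurable.div
          hP.continuous_gauge.measurable).pow_const _).aestronglyMeasurable
      · filter_upwards [hne0] with x hx
        rw [hpt x hx, Real.norm_eq_abs, Real.abs_exp]
        apply Real.exp_le_exp.2
        have := (abs_le.1 (hFb k x hx)).1
        have h7 : 0 ≤ n * ε k := by positivity
        nlinarith
    have h2 : ∫ x, (1 - n * ε k * F k x) ∂ρ ≤
        ∫ x, (gauge K x / gauge (pbd K φ (ε k)) x) ^ n ∂ρ := by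
      apply integral_mono_ae ((integrable_const _).sub (hInt.const_mul _)) hInt2
      filter_upwards [hne0] with x hx
      rw [hpt x hx]
      have := Real.add_one_le_exp (-(n * ε k * F k x))
      simp only [Pi.sub_apply]
      linarith
    rw [integral_sub (integrable_const _) (hInt.const_mul _), integral_const_mul] at h2
    rw [h1]
    refine le_trans (le_of_eq ?_) h2
    congr 1
    rw [integral_const, hρ]
    simp only [smul_eq_mul, mul_one]
    rw [measureReal_restrict_apply_univ, Measure.real, evol_interior hK]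
    rfl

/-- logarithmic form of the first variation -/
theorem log_variation (hn : 0 < n) {K : Set (EV n)} (hK : SymConvexBody K) {φ : EV n → ℝ}
    (hφ : Continuous φ) (he : ∀ u, φ (-u) = φ u) (ε : ℕ → ℝ) (hεpos : ∀ k, 0 < ε k)
    (hε0 : Tendsto ε atTop (𝓝 0)) :
    ∃ J : ℕ → ℝ, Tendsto J atTop (𝓝 (-(n * (∫ u, φ u ∂(coneVol K)) / evol K))) ∧
      ∀ᶠ k in atTop, ε k * J k ≤ Real.log (evol (pbd K φ (ε k))) - Real.log (evol K) := by
  obtain ⟨I, hI, hle⟩ := variation hn hK hφ he ε hεpos hε0
  have pK := evol_pos hK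
  have hd : Tendsto (fun k => evol K - n * ε k * I k) atTop
      (𝓝 (evol K - n * 0 * ∫ u, φ u ∂(coneVol K))) :=
    tendsto_const_nhds.sub ((hε0.const_mul _).mul hI)
  rw [mul_zero, zero_mul, sub_zero] at hd
  refine ⟨fun k => -(n * I k / (evol K - n * ε k * I k)),
    ((hI.const_mul _).div hd pK.ne').neg, ?_⟩
  filter_upwards [hd.eventually (lt_mem_nhds pK)] with k hk
  have h1 := Real.log_le_log hk (hle k)
  have h2 := Real.one_sub_inv_le_log_of_pos (div_pos hk pK)
  rw [Real.log_div hk.ne' pK.ne'] at h2
  have e : ε k * -(n * I k / (evol K - n * ε k * I k)) =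
      1 - ((evol K - n * ε k * I k) / evol K)⁻¹ := by
    have hne := hk.ne'
    rw [inv_div, one_sub_div hne]
    ring
  rw [e]
  linarith

theorem logComb_scb {K L : Set (EV n)} (hK : SymConvexBody K) (hL : SymConvexBody L) (t : ℝ) :
    SymConvexBody (logComb t K L) := by
  have h := pbody_scb hK hL (-t)
  have e : pbody K L (-t) = logComb t K L := by
    ext x
    refine forall₂_congr fun u hu => ?_
    have hu0 := ne_zero_of_norm_one hu
    have qK := hK.supportFn_pos hu0
    have qL := hL.supportFn_pos hu0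
    have : pert K L (-t) u = supportFn K u ^ (1 - t) * supportFn L u ^ t := by
      rw [pert, lratio, Real.rpow_def_of_pos qK, Real.rpow_def_of_pos qL, ← Real.exp_add]
      nth_rewrite 1 [← Real.exp_log qK]
      rw [← Real.exp_add]
      congr 1
      ring
    rw [this]
  rwa [e] at h

/-- one inequality between the integrals of an even function -/
theorem integral_le_of_eq (hn : 0 < n) {K L : Set (EV n)} (hK : SymConvexBody K)
    (hL : SymConvexBody L) {t : ℝ} (t0 : 0 < t) (t1 : t < 1)
    (heq : Real.log (evol (logComb t K L)) ≤ (1 - t) * Real.log (evol K) + t * Real.log (evol L))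
    {φ : EV n → ℝ} (hφ : Continuous φ) (he : ∀ u, φ (-u) = φ u) :
    (∫ u, φ u ∂(coneVol L)) / evol L ≤ (∫ u, φ u ∂(coneVol K)) / evol K := by
  have hn' : (0 : ℝ) < n := by exact_mod_cast hn
  set ε : ℕ → ℝ := fun k => 1 / ((k : ℝ) + 1) with hε
  have hεpos : ∀ k, 0 < ε k := fun k => by positivity
  have hε0 : Tendsto ε atTop (𝓝 0) := tendsto_one_div_add_atTop_nhds_zero_nat
  have t1' : 0 < 1 - t := by linarith
  have he' : ∀ u, (fun u => -φ u) (-u) = (fun u => -φ u) u := fun u => by simp only [he]
  obtain ⟨J, hJ, hJle⟩ := log_variation hn hK hφ he (fun k => t * ε k)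
    (fun k => mul_pos t0 (hεpos k)) (by simpa using hε0.const_mul t)
  obtain ⟨J', hJ', hJle'⟩ := log_variation hn hL (φ := fun u => -φ u) hφ.neg he'
    (fun k => (1 - t) * ε k)
    (fun k => mul_pos t1' (hεpos k)) (by simpa using hε0.const_mul (1 - t))
  have hM := logComb_scb hK hL t
  have key : ∀ᶠ k in atTop, J k + J' k ≤ 0 := by
    filter_upwards [hJle, hJle'] with k h1 h2
    have hP := pbd_scb hK hφ he (t * ε k)
    have hQ := pbd_scb hL (φ := fun u => -φ u) hφ.neg he' ((1 - t) * ε k)
    have h3 := H880.q1_enn hn hP hQ t0.le t1.le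
    have hsub : logComb t (pbd K φ (t * ε k)) (pbd L (fun u => -φ u) ((1 - t) * ε k)) ⊆
        logComb t K L := by
      apply H880.wulff_mono
      intro u hu
      have hu0 := ne_zero_of_norm_one hu
      have qK := hK.supportFn_pos hu0
      have qL := hL.supportFn_pos hu0
      have a1 : supportFn (pbd K φ (t * ε k)) u ≤ prt K φ (t * ε k) u :=
        supportFn_le ⟨0, hP.zero_mem⟩ fun x hx => hx u hu
      have a2 : supportFn (pbd L (fun u => -φ u) ((1 - t) * ε k)) u ≤
          prt L (fun u => -φ u) ((1 - t) * ε k) u :=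
        supportFn_le ⟨0, hQ.zero_mem⟩ fun x hx => hx u hu
      calc _ ≤ prt K φ (t * ε k) u ^ (1 - t) * prt L (fun u => -φ u) ((1 - t) * ε k) u ^ t := by
            apply mul_le_mul (Real.rpow_le_rpow (H880.sf_nonneg hP u) a1 t1'.le)
              (Real.rpow_le_rpow (H880.sf_nonneg hQ u) a2 t0.le)
              (Real.rpow_nonneg (H880.sf_nonneg hQ u) _)
            apply Real.rpow_nonneg
            unfold prt
            positivity
        _ = _ := by
            unfold prt
            rw [Real.mul_rpow qK.le (Real.exp_pos _).le, Real.mul_rpow qL.le (Real.exp_pos _).le,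
              ← Real.exp_mul, ← Real.exp_mul]
            have : Real.exp (-(t * ε k * φ u) * (1 - t)) *
                Real.exp (-((1 - t) * ε k * -φ u) * t) = 1 := by
              rw [← Real.exp_add, ← Real.exp_zero]
              congr 1
              ring
            linear_combination (supportFn K u ^ (1 - t) * supportFn L u ^ t) * this
    have h4 := ENNReal.toReal_mono hM.isCompact.measure_lt_top.ne
      (h3.trans (measure_mono hsub))
    rw [ENNReal.toReal_mul, ← ENNReal.toReal_rpow, ← ENNReal.toReal_rpow] at h4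
    have pP := evol_pos hP
    have pQ := evol_pos hQ
    change evol _ ^ (1 - t) * evol _ ^ t ≤ evol _ at h4
    have h5 := Real.log_le_log (by positivity) h4
    rw [Real.log_mul (by positivity) (by positivity), Real.log_rpow pP, Real.log_rpow pQ] at h5
    have h6 := mul_le_mul_of_nonneg_left h1 t1'.le
    have h7 := mul_le_mul_of_nonneg_left h2 t0.le
    have h8 : (t * (1 - t) * ε k) * (J k + J' k) ≤ 0 := by nlinarith
    by_contra hc
    rw [not_le] at hc
    have := mul_pos (mul_pos (mul_pos t0 t1') (hεpos k)) hc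
    linarith
  have h9 := le_of_tendsto (hJ.add hJ') key
  rw [integral_neg] at h9
  have e : -(n * (∫ u, φ u ∂(coneVol K)) / evol K) + -(n * (-∫ u, φ u ∂(coneVol L)) / evol L) =
      n * ((∫ u, φ u ∂(coneVol L)) / evol L - (∫ u, φ u ∂(coneVol K)) / evol K) := by ring
  rw [e] at h9
  by_contra hc
  rw [not_le] at hc
  have := mul_pos hn' (sub_pos.2 hc)
  linarith

theorem gradient_hom {a : EV n → ℝ} {c d : ℝ} (hc : c ≠ 0) (h : ∀ y, a (c • y) = d * a y)
    (x : EV n) : gradient a (c • x) = (d / c) • gradient a x := by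
  have h1 := fderiv_comp_smul (𝕜 := ℝ) (f := a) (x := x) c
  have e : (fun y => a (c • y)) = d • a := by
    funext y
    rw [h y]
    rfl
  rw [e, fderiv_const_smul_field, Pi.smul_apply] at h1
  have h2 : fderiv ℝ a (c • x) = (d / c) • fderiv ℝ a x := by
    rw [div_eq_inv_mul, mul_smul, h1, smul_smul, inv_mul_cancel₀ hc, one_smul]
  unfold gradient
  rw [h2, map_smul]

theorem outerNormal_smul (K : Set (EV n)) {r : ℝ} (hr : 0 < r) (x : EV n) :
    outerNormal K (r • x) = outerNormal K x := by
  unfold outerNormal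
  rw [gradient_hom (d := r) hr.ne' (fun y => by rw [gauge_smul_of_nonneg hr.le, smul_eq_mul]),
    div_self hr.ne', one_smul]

theorem outerNormal_neg {K : Set (EV n)} (hK : SymConvexBody K) (x : EV n) :
    outerNormal K (-x) = -outerNormal K x := by
  unfold outerNormal
  have := gradient_hom (a := gauge K) (c := -1) (d := 1) (by norm_num)
    (fun y => by rw [neg_one_smul, gauge_neg hK.symm, one_mul]) x
  rw [neg_one_smul] at this
  rw [this]
  norm_num

theorem integral_neg_coneVol {K : Set (EV n)} (hK : SymConvexBody K) {f : EV n → ℝ}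
    (hf : Continuous f) : ∫ u, f (-u) ∂(coneVol K) = ∫ u, f u ∂(coneVol K) := by
  have hm := (measurable_outerNormal K).aemeasurable (μ := volume.restrict K)
  rw [coneVol, integral_map hm hf.aestronglyMeasurable,
    integral_map hm (f := fun u => f (-u)) (hf.comp continuous_neg).aestronglyMeasurable]
  have hK' : -K = K := by
    ext x
    rw [Set.mem_neg]
    exact ⟨fun h => by simpa using hK.symm _ h, hK.symm x⟩
  have h1 := (Measure.measurePreserving_neg (volume : Measure (EV n))).setIntegral_preimage_emb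
    (MeasurableEquiv.neg (EV n)).measurableEmbedding (fun x => f (outerNormal K x)) K
  have e : (Neg.neg ⁻¹' K : Set (EV n)) = K := hK'
  rw [e] at h1
  rw [← h1]
  congr 1
  funext x
  rw [outerNormal_neg hK]

/-- the normalized cone-volume measure -/
noncomputable abbrev nV (K : Set (EV n)) : Measure (EV n) := (volume K)⁻¹ • coneVol K

theorem integral_nV (K : Set (EV n)) (f : EV n → ℝ) :
    ∫ u, f u ∂(nV K) = (∫ u, f u ∂(coneVol K)) / evol K := by
  rw [nV, integral_smul_measure, ENNReal.toReal_inv, smul_eq_mul, div_eq_inv_mul]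
  rfl

theorem vol_ne_zero {K : Set (EV n)} (hK : SymConvexBody K) : volume K ≠ 0 := by
  intro h
  have := evol_pos hK
  rw [evol, h] at this
  simp at this

theorem finite_nV {K : Set (EV n)} (hK : SymConvexBody K) : IsFiniteMeasure (nV K) := by
  have := finite_coneVol hK
  exact (coneVol K).smul_finite (ENNReal.inv_ne_top.2 (vol_ne_zero hK))

/-- equality in the logarithmic Brunn-Minkowski inequality forces proportional cone-volume
measures -/
theorem nV_eq_of_eq (hn : 0 < n) {K L : Set (EV n)} (hK : SymConvexBody K)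
    (hL : SymConvexBody L) {t : ℝ} (t0 : 0 < t) (t1 : t < 1)
    (heq : Real.log (evol (logComb t K L)) ≤
      (1 - t) * Real.log (evol K) + t * Real.log (evol L)) : nV K = nV L := by
  have := finite_nV hK
  have := finite_nV hL
  have := finite_coneVol hK
  have := finite_coneVol hL
  apply ext_of_forall_integral_eq_of_IsFiniteMeasure
  intro f
  rw [integral_nV, integral_nV]
  have hc : Continuous fun u => f u + f (-u) := by fun_prop
  have he : ∀ u, (fun u => f u + f (-u)) (-u) = (fun u => f u + f (-u)) u := fun u => by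
    simp only [neg_neg, add_comm]
  have h1 := integral_le_of_eq hn hK hL t0 t1 heq hc he
  have h2 := integral_le_of_eq hn hK hL t0 t1 heq (φ := fun u => -(f u + f (-u))) hc.neg
    (fun u => by simp only [neg_neg, add_comm])
  have hi : ∀ (M : Set (EV n)), SymConvexBody M →
      ∫ u, (f u + f (-u)) ∂(coneVol M) = 2 * ∫ u, f u ∂(coneVol M) := by
    intro M hM
    have := finite_coneVol hM
    have i2 : Integrable (fun u => f (-u)) (coneVol M) :=
      (f.compContinuous ⟨_, continuous_neg⟩).integrable _
    rw [integral_add (f.integrable _) i2, integral_neg_coneVol hM f.continuous]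
    ring
  rw [integral_neg, integral_neg, neg_div, neg_div] at h2
  rw [hi K hK, hi L hL, mul_div_assoc, mul_div_assoc] at h1 h2
  linarith

/-- equality in the logarithmic Minkowski inequality -/
def Emink (K L : Set (EV n)) : Prop :=
  evol K * Real.log (evol L / evol K) =
    n * ∫ u, Real.log (supportFn L u / supportFn K u) ∂(coneVol K)

theorem supportFn_logComb_le {K L : Set (EV n)} (hK : SymConvexBody K) (hL : SymConvexBody L)
    (s : ℝ) {u : EV n} (hu : ‖u‖ = 1) :
    Real.log (supportFn (logComb s K L) u / supportFn K u) ≤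
      s * Real.log (supportFn L u / supportFn K u) := by
  have hM := logComb_scb hK hL s
  have hu0 := ne_zero_of_norm_one hu
  have qK := hK.supportFn_pos hu0
  have qL := hL.supportFn_pos hu0
  have qM := hM.supportFn_pos hu0
  have a1 : supportFn (logComb s K L) u ≤ supportFn K u ^ (1 - s) * supportFn L u ^ s :=
    supportFn_le ⟨0, hM.zero_mem⟩ fun x hx => hx u hu
  have a2 := Real.log_le_log qM a1
  rw [Real.log_mul (by positivity) (by positivity), Real.log_rpow qK, Real.log_rpow qL] at a2
  rw [Real.log_div qM.ne' qK.ne', Real.log_div qL.ne' qK.ne']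
  linarith

theorem q1_log (hn : 0 < n) {K L : Set (EV n)} (hK : SymConvexBody K) (hL : SymConvexBody L)
    {s : ℝ} (s0 : 0 ≤ s) (s1 : s ≤ 1) :
    (1 - s) * Real.log (evol K) + s * Real.log (evol L) ≤ Real.log (evol (logComb s K L)) := by
  have h4 := ENNReal.toReal_mono (logComb_scb hK hL s).isCompact.measure_lt_top.ne
    (H880.q1_enn hn hK hL s0 s1)
  rw [ENNReal.toReal_mul, ← ENNReal.toReal_rpow, ← ENNReal.toReal_rpow] at h4
  have pP := evol_pos hK
  have pQ := evol_pos hL
  change evol _ ^ (1 - s) * evol _ ^ s ≤ evol _ at h4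
  have h5 := Real.log_le_log (by positivity) h4
  rwa [Real.log_mul (by positivity) (by positivity), Real.log_rpow pP, Real.log_rpow pQ] at h5

theorem Emink.comb (hn : 0 < n) {K L : Set (EV n)} (hK : SymConvexBody K) (hL : SymConvexBody L)
    (h : Emink K L) {s : ℝ} (s0 : 0 ≤ s) (s1 : s ≤ 1) :
    Real.log (evol (logComb s K L)) = (1 - s) * Real.log (evol K) + s * Real.log (evol L) ∧
    Emink K (logComb s K L) ∧
    ∀ᵐ u ∂(coneVol K), Real.log (supportFn (logComb s K L) u / supportFn K u) =
      s * Real.log (supportFn L u / supportFn K u) := by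
  have hn' : (0 : ℝ) < n := by exact_mod_cast hn
  have hM := logComb_scb hK hL s
  have pK := evol_pos hK
  have pL := evol_pos hL
  have pM := evol_pos hM
  have h1 := log_minkowski_cone hn hK hM
  have h2 := q1_log hn hK hL s0 s1
  have i1 := integrable_ratio hn hK hM
  have i2 := (integrable_ratio hn hK hL).const_mul s
  have hle : (fun u => Real.log (supportFn (logComb s K L) u / supportFn K u)) ≤ᵐ[coneVol K]
      fun u => s * Real.log (supportFn L u / supportFn K u) := by
    filter_upwards [ae_coneVol hn hK] with u hu using supportFn_logComb_le hK hL s hu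
  have h3 := integral_mono_ae i1 i2 hle
  unfold Emink at h ⊢
  rw [Real.log_div pL.ne' pK.ne'] at h
  rw [Real.log_div pM.ne' pK.ne'] at h1 ⊢
  have h4 := mul_le_mul_of_nonneg_left h3 hn'.le
  have h5 := mul_le_mul_of_nonneg_left h2 pK.le
  rw [integral_const_mul] at h4
  have h6 : n * (s * ∫ u, Real.log (supportFn L u / supportFn K u) ∂(coneVol K)) =
      s * (evol K * (Real.log (evol L) - Real.log (evol K))) := by rw [h]; ring
  refine ⟨?_, by nlinarith, ?_⟩
  · apply le_antisymm _ h2
    apply le_of_mul_le_mul_left _ pK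
    nlinarith
  · apply (integral_eq_iff_of_ae_le i1 i2 hle).1
    apply le_antisymm h3
    rw [integral_const_mul]
    apply le_of_mul_le_mul_left _ hn'
    nlinarith

theorem Emink.nV_eq (hn : 0 < n) {K L : Set (EV n)} (hK : SymConvexBody K) (hL : SymConvexBody L)
    (h : Emink K L) : nV K = nV L :=
  nV_eq_of_eq hn hK hL (t := 1 / 2) (by norm_num) (by norm_num)
    (h.comb hn hK hL (by norm_num) (by norm_num)).1.le

theorem emink_of_nV (hn : 0 < n) {K L : Set (EV n)} (hK : SymConvexBody K) (hL : SymConvexBody L)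
    (h : nV K = nV L) : Emink K L := by
  have pK := evol_pos hK
  have pL := evol_pos hL
  have h1 := log_minkowski_cone hn hK hL
  have h2 := log_minkowski_cone hn hL hK
  have h3 : ∫ u, Real.log (supportFn K u / supportFn L u) ∂(coneVol L) =
      -∫ u, Real.log (supportFn L u / supportFn K u) ∂(coneVol L) := by
    rw [← integral_neg]
    congr 1
    funext u
    rw [← Real.log_inv, inv_div]
  have h4 := integral_nV K fun u => Real.log (supportFn L u / supportFn K u)
  rw [h, integral_nV, div_eq_div_iff pL.ne' pK.ne'] at h4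
  rw [h3, ← inv_div, Real.log_inv] at h2
  apply le_antisymm h1
  apply le_of_mul_le_mul_left _ pL
  have h5 := mul_le_mul_of_nonneg_left h2 pK.le
  have h6 : evol L * (n * ∫ u, Real.log (supportFn L u / supportFn K u) ∂(coneVol K)) =
      evol K * (n * ∫ u, Real.log (supportFn L u / supportFn K u) ∂(coneVol L)) := by
    linear_combination (-n : ℝ) * h4
  rw [h6]
  nlinarith

theorem eq_iff_log {K L : Set (EV n)} (hK : SymConvexBody K) (hL : SymConvexBody L) (t : ℝ) :
    volume (logComb t K L) = volume K ^ (1 - t) * volume L ^ t ↔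
      Real.log (evol (logComb t K L)) = (1 - t) * Real.log (evol K) + t * Real.log (evol L) := by
  have hM := logComb_scb hK hL t
  have pK := evol_pos hK
  have pL := evol_pos hL
  have pM := evol_pos hM
  have f1 : volume K ^ (1 - t) * volume L ^ t ≠ ⊤ :=
    ENNReal.mul_ne_top
      (ENNReal.rpow_ne_top_of_ne_zero (vol_ne_zero hK) hK.isCompact.measure_lt_top.ne)
      (ENNReal.rpow_ne_top_of_ne_zero (vol_ne_zero hL) hL.isCompact.measure_lt_top.ne)
  rw [← ENNReal.toReal_eq_toReal_iff' hM.isCompact.measure_lt_top.ne f1, ENNReal.toReal_mul,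
    ← ENNReal.toReal_rpow, ← ENNReal.toReal_rpow, ← Real.log_rpow pK, ← Real.log_rpow pL,
    ← Real.log_mul (by positivity) (by positivity)]
  change evol _ = evol K ^ (1 - t) * evol L ^ t ↔ _
  exact ⟨fun h => by rw [h], fun h => Real.log_injOn_pos pM (by simp; positivity) h⟩

/-- equality in the logarithmic Brunn-Minkowski inequality if and only if the cone-volume
measures are proportional -/
theorem eq_iff_nV (hn : 0 < n) {K L : Set (EV n)} (hK : SymConvexBody K) (hL : SymConvexBody L)
    {t : ℝ} (t0 : 0 < t) (t1 : t < 1) :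
    volume (logComb t K L) = volume K ^ (1 - t) * volume L ^ t ↔ nV K = nV L := by
  rw [eq_iff_log hK hL]
  exact ⟨fun h => nV_eq_of_eq hn hK hL t0 t1 h.le,
    fun h => ((emink_of_nV hn hK hL h).comb hn hK hL t0.le t1.le).1⟩

end Vale.Agent.N227
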