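import Vale.Agent.N227.Alex
import Vale.Agent.N227.Var

/-! # P227: polynomial lemmas, cones of good directions, the joint law of gauge and normal -/

open MeasureTheory Set Metric Filter Topology
open scoped ENNReal NNReal Pointwise

namespace Vale.Agent.N227

open Vale.Agent.P227 Vale.Agent.P227.H368

variable {n : ℕ}

theorem det_poly (B0 B1 B2 : EV n →L[ℝ] EV n) :
    ∃ P : Polynomial ℝ, ∀ s : ℝ, (B0 + s • B1 + s ^ 2 • B2).det = P.eval s := by
  classical
  set b := (EuclideanSpace.basisFun (Fin n) ℝ).toBasis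
  set M : (EV n →L[ℝ] EV n) → Matrix (Fin n) (Fin n) ℝ := fun B =>
    LinearMap.toMatrix b b (B : EV n →ₗ[ℝ] EV n) with hM
  refine ⟨Matrix.det (Matrix.of fun i j => Polynomial.C (M B0 i j) +
    Polynomial.X * Polynomial.C (M B1 i j) + Polynomial.X ^ 2 * Polynomial.C (M B2 i j)),
    fun s => ?_⟩
  rw [ContinuousLinearMap.det, ← LinearMap.det_toMatrix b, ← Polynomial.coe_evalRingHom,
    RingHom.map_det]
  congr 1
  ext i j
  simp [hM]
  ring

theorem poly_exp {P : Polynomial ℝ} {c : ℝ} (h0 : P.eval 0 ≠ 0)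
    (h : ∀ s : ℚ, 0 ≤ s → s ≤ 1 → |P.eval (s : ℝ)| = Real.exp (c * s) * |P.eval 0|) : c = 0 := by
  have h2 : ∀ s : ℚ, 0 ≤ s → s ≤ 1 →
      (P ^ 2).eval (s : ℝ) = Real.exp (2 * c * s) * (P.eval 0) ^ 2 := by
    intro s s0 s1
    rw [Polynomial.eval_pow, ← sq_abs, h s s0 s1, mul_pow, sq_abs, ← Real.exp_nat_mul]
    congr 2
    push_cast
    ring
  have hP : P ^ 2 ≠ 0 := pow_ne_zero _ fun hz => h0 (by rw [hz]; simp)
  have e : Polynomial.taylor (1 / 2 : ℝ) (P ^ 2) = Polynomial.C (Real.exp c) * P ^ 2 := by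
    apply Polynomial.eq_of_infinite_eval_eq
    have hinj : Function.Injective fun k : ℕ => (1 / ((k : ℝ) + 2)) := by
      intro k l hkl
      simp only [one_div, inv_inj, add_left_inj, Nat.cast_inj] at hkl
      exact hkl
    refine (infinite_range_of_injective hinj).mono ?_
    rintro _ ⟨k, rfl⟩
    have k0 : (0 : ℚ) ≤ 1 / ((k : ℚ) + 2) := by positivity
    have k1 : 1 / ((k : ℚ) + 2) ≤ 1 / 2 := by
      apply one_div_le_one_div_of_le (by norm_num)
      have : (0 : ℚ) ≤ k := by positivity
      linarith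
    have a1 := h2 (1 / ((k : ℚ) + 2)) k0 (by linarith)
    have a2 := h2 (1 / ((k : ℚ) + 2) + 1 / 2) (by linarith) (by linarith)
    push_cast at a1 a2
    simp only [mem_ofPred_eq, Polynomial.taylor_eval, Polynomial.eval_mul, Polynomial.eval_C]
    rw [a1, a2, ← mul_assoc, ← Real.exp_add]
    congr 2
    ring
  have h3 := congrArg Polynomial.leadingCoeff e
  rw [Polynomial.leadingCoeff_taylor, Polynomial.leadingCoeff_mul, Polynomial.leadingCoeff_C]
    at h3
  have h4 : (P ^ 2).leadingCoeff ≠ 0 := Polynomial.leadingCoeff_ne_zero.2 hP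
  have h5 : Real.exp c = 1 := by
    have : (Real.exp c - 1) * (P ^ 2).leadingCoeff = 0 := by linarith
    rcases mul_eq_zero.1 this with h6 | h6
    · linarith
    · exact absurd h6 h4
  exact (Real.exp_eq_one_iff c).1 h5

theorem deriv_form {w g : EV n → ℝ} {p q : EV n → EV n} {G : Set (EV n)} {y : EV n}
    (hw : DifferentiableWithinAt ℝ w G y) (hg : DifferentiableWithinAt ℝ g G y)
    (hp : DifferentiableWithinAt ℝ p G y) (hq : DifferentiableWithinAt ℝ q G y) :
    ∃ B0 B1 B2 : EV n →L[ℝ] EV n, ∀ s : ℝ,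
      HasFDerivWithinAt (fun y => Real.exp (w y + s * g y) • (p y + s • q y))
        (Real.exp (w y + s * g y) • (B0 + s • B1 + s ^ 2 • B2)) G y := by
  obtain ⟨w', hw⟩ := hw
  obtain ⟨g', hg⟩ := hg
  obtain ⟨p', hp⟩ := hp
  obtain ⟨q', hq⟩ := hq
  refine ⟨p' + w'.smulRight (p y), q' + w'.smulRight (q y) + g'.smulRight (p y),
    g'.smulRight (q y), fun s => ?_⟩
  have h := (hw.add (hg.const_mul s)).exp.smul (hp.add (hq.const_smul s))
  refine h.congr_fderiv ?_
  ext1 v
  simp only [add_apply, smul_apply,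
    ContinuousLinearMap.smulRight_apply, Pi.add_apply, Pi.smul_apply, smul_eq_mul]
  module

theorem nontriv (hn : 0 < n) : Nontrivial (EV n) := by
  have : 0 < Module.finrank ℝ (EV n) := by rw [finrank_euclideanSpace_fin]; exact hn
  exact Module.nontrivial_of_finrank_pos this

/-- the spherical Lebesgue measure, as a measure on the ambient space -/
noncomputable abbrev sph (n : ℕ) : Measure (EV n) :=
  Measure.map Subtype.val (volume : Measure (EV n)).toSphere

theorem cone_ae (hn : 0 < n) {P : EV n → Prop} (hP : ∀ r : ℝ, 0 < r → ∀ y, P y → P (r • y))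
    (h : ∀ᵐ y, P y) : ∀ᵐ u ∂(sph n), P u := by
  have := nontriv hn
  rw [(MeasurableEmbedding.subtype_coe isClosed_sphere.measurableSet).ae_map_iff]
  set N := toMeasurable volume {y | ¬ P y} with hN
  have hNm : MeasurableSet N := measurableSet_toMeasurable _ _
  have h0 : volume N = 0 := by rw [hN, measure_toMeasurable]; exact ae_iff.1 h
  have h1 := polar_lintegral (volume : Measure (EV n)) _ (measurable_one.indicator hNm)
  rw [lintegral_indicator_one hNm, h0, eq_comm, lintegral_eq_zero_iff] at h1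
  · filter_upwards [h1] with θ hθ
    by_contra hne
    have h2 : ∀ r : Ioi (0 : ℝ), N.indicator (1 : EV n → ℝ≥0∞) (r.1 • θ.1) = 1 := by
      intro r
      have hr : (0 : ℝ) < r.1 := r.2
      apply indicator_of_mem
      apply subset_toMeasurable
      intro h3
      have := hP _ (inv_pos.2 hr) _ h3
      rw [smul_smul, inv_mul_cancel₀ hr.ne', one_smul] at this
      exact hne this
    simp only [h2, lintegral_const, one_mul, Pi.zero_apply] at hθ
    have h4 := measure_mono_null (subset_univ (Iio (⟨1, mem_Ioi.2 one_pos⟩ : Ioi (0 : ℝ)))) hθ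
    rw [Measure.volumeIoiPow_apply_Iio, ENNReal.ofReal_eq_zero] at h4
    have h5 : (0 : ℝ) < (1 : ℝ) ^ (Module.finrank ℝ (EV n) - 1 + 1) /
        ((Module.finrank ℝ (EV n) - 1 : ℕ) + 1) := by positivity
    exact absurd h4 (not_le.2 h5)
  · apply Measurable.lintegral_prod_right' (f := fun p : sphere (0 : EV n) 1 × Ioi (0 : ℝ) =>
      N.indicator (1 : EV n → ℝ≥0∞) (p.2.1 • p.1.1))
    exact (measurable_one.indicator hNm).comp (by fun_prop)

theorem cone_null (hn : 0 < n) {N : Set (EV n)} (hN : MeasurableSet N) (h : sph n N = 0) :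
    volume {y : EV n | ‖y‖⁻¹ • y ∈ N} = 0 := by
  have := nontriv hn
  have hm : MeasurableSet {y : EV n | ‖y‖⁻¹ • y ∈ N} :=
    (measurable_norm.inv.smul measurable_id) hN
  have h1 := polar_lintegral (volume : Measure (EV n)) _ (measurable_one.indicator hm)
  rw [lintegral_indicator_one hm] at h1
  rw [h1]
  have h2 : ∀ᵐ u ∂(sph n), u ∉ N := measure_eq_zero_iff_ae_notMem.1 h
  rw [(MeasurableEmbedding.subtype_coe isClosed_sphere.measurableSet).ae_map_iff] at h2
  rw [← lintegral_zero (μ := (volume : Measure (EV n)).toSphere)]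
  apply lintegral_congr_ae
  filter_upwards [h2] with θ hθ
  have h3 : ∀ r : Ioi (0 : ℝ),
      {y : EV n | ‖y‖⁻¹ • y ∈ N}.indicator (1 : EV n → ℝ≥0∞) (r.1 • θ.1) = 0 := by
    intro r
    have hr : (0 : ℝ) < r.1 := r.2
    apply indicator_of_notMem
    rw [mem_ofPred_eq, norm_smul, mem_sphere_zero_iff_norm.1 θ.2, mul_one, Real.norm_of_nonneg hr.le,
      smul_smul, inv_mul_cancel₀ hr.ne', one_smul]
    exact hθ
  simp only [h3, lintegral_const, zero_mul]

/-- differentiability of the second order in the sense of Alexandrov -/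
def Alx (a : EV n → ℝ) (y : EV n) : Prop :=
  DifferentiableAt ℝ a y ∧ DifferentiableWithinAt ℝ (gradient a) {z | DifferentiableAt ℝ a z} y

theorem diff_hom {a : EV n → ℝ} (h : ∀ r : ℝ, 0 < r → ∀ y, a (r • y) = r * a y) {r : ℝ}
    (hr : 0 < r) {y : EV n} (hy : DifferentiableAt ℝ a y) : DifferentiableAt ℝ a (r • y) := by
  have e : a = fun w => r * a (r⁻¹ • w) := by
    funext w
    rw [h _ (inv_pos.2 hr), ← mul_assoc, mul_inv_cancel₀ hr.ne', one_mul]
  rw [e]
  apply DifferentiableAt.const_mul
  apply DifferentiableAt.comp (g := a) (f := fun w : EV n => r⁻¹ • w)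
  · rwa [smul_smul, inv_mul_cancel₀ hr.ne', one_smul]
  · fun_prop

theorem Alx.smul {a : EV n → ℝ} (h : ∀ r : ℝ, 0 < r → ∀ y, a (r • y) = r * a y) {r : ℝ}
    (hr : 0 < r) {y : EV n} (hy : Alx a y) : Alx a (r • y) := by
  refine ⟨diff_hom h hr hy.1, ?_⟩
  have e : gradient a = fun w => gradient a (r⁻¹ • w) := by
    funext w
    rw [gradient_hom (inv_pos.2 hr).ne' (h _ (inv_pos.2 hr)), div_self (inv_pos.2 hr).ne',
      one_smul]
  rw [e]
  apply DifferentiableWithinAt.comp (g := gradient a) (f := fun w : EV n => r⁻¹ • w)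
    (t := {z | DifferentiableAt ℝ a z})
  · rw [smul_smul, inv_mul_cancel₀ hr.ne', one_smul]
    exact hy.2
  · fun_prop
  · exact fun w hw => diff_hom h (inv_pos.2 hr) hw

theorem sf_smul {K : Set (EV n)} (hK : SymConvexBody K) (r : ℝ) (hr : 0 < r) (y : EV n) :
    supportFn K (r • y) = r * supportFn K y :=
  H368.supportFn_smul hK.isCompact ⟨0, hK.zero_mem⟩ hr.le y

theorem ae_alx (hn : 0 < n) {K : Set (EV n)} (hK : SymConvexBody K) :
    ∀ᵐ u ∂(sph n), Alx (supportFn K) u := by
  apply cone_ae hn (fun r hr y hy => hy.smul (sf_smul hK) hr)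
  have hne : K.Nonempty := ⟨0, hK.zero_mem⟩
  have hconv : ConvexOn ℝ univ (supportFn K) := by
    refine ⟨convex_univ, fun x _ y _ a b ha hb _ => ?_⟩
    refine (supportFn_add_le hK.isCompact hne _ _).trans (le_of_eq ?_)
    rw [H368.supportFn_smul hK.isCompact hne ha, H368.supportFn_smul hK.isCompact hne hb]
    rfl
  obtain ⟨R, hR0, hR⟩ := hK.exists_bound
  have hlip : LipschitzWith R.toNNReal (supportFn K) := by
    apply LipschitzWith.of_le_add_mul
    intro u v
    have h1 := supportFn_add_le hK.isCompact hne v (u - v)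
    have h2 := hK.supportFn_le_norm hR (u - v)
    rw [Real.coe_toNNReal _ hR0.le, dist_eq_norm]
    have h3 : v + (u - v) = u := by abel
    rw [h3] at h1
    linarith
  filter_upwards [hlip.ae_differentiableAt,
    alexandrov volume hconv (H880.sf_nonneg hK) hK.continuous_supportFn] with y h1 h2
  obtain ⟨H, hH⟩ := h2 h1
  exact ⟨h1, hH.differentiableWithinAt⟩

theorem mem_iff_gauge {M : Set (EV n)} (hM : SymConvexBody M) (x : EV n) :
    x ∈ M ↔ gauge M x ≤ 1 := by
  rw [gauge_le_one_iff_mem_closure hM.convex hM.nhds, hM.isCompact.isClosed.closure_eq]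

theorem vol_cone (hn : 0 < n) {M : Set (EV n)} (hM : SymConvexBody M) {ω : Set (EV n)}
    (hω : MeasurableSet ω) (r : ℝ) :
    volume (gauge M ⁻¹' Iic r ∩ (outerNormal M ⁻¹' ω ∩ M)) =
      ENNReal.ofReal ((max 0 (min r 1)) ^ n) * coneVol M ω := by
  have := nontriv hn
  rw [coneVol, Measure.map_apply (measurable_outerNormal M) hω,
    Measure.restrict_apply (measurable_outerNormal M hω)]
  rcases le_or_gt r 0 with h0 | h0
  · rw [max_eq_left ((min_le_left _ _).trans h0), zero_pow hn.ne', ENNReal.ofReal_zero, zero_mul]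
    apply measure_mono_null _ (measure_singleton (0 : EV n))
    intro x hx
    by_contra hne
    exact absurd (hM.gauge_pos hne) (not_lt.2 (le_trans hx.1 h0))
  have hc : 0 < min r 1 := lt_min h0 one_pos
  have e : gauge M ⁻¹' Iic r ∩ (outerNormal M ⁻¹' ω ∩ M) =
      min r 1 • (outerNormal M ⁻¹' ω ∩ M) := by
    ext x
    rw [mem_smul_set_iff_inv_smul_mem₀ hc.ne']
    simp only [mem_inter_iff, mem_preimage, mem_Iic, outerNormal_smul M (inv_pos.2 hc),
      mem_iff_gauge hM]
    rw [gauge_smul_of_nonneg (inv_pos.2 hc).le, smul_eq_mul, inv_mul_le_iff₀ hc, mul_one,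
      le_min_iff]
    tauto
  rw [e, Measure.addHaar_smul, finrank_euclideanSpace_fin, max_eq_right hc.le,
    abs_of_pos (pow_pos hc n)]

/-- the joint law of the gauge and of the outer normal -/
noncomputable def jl (M : Set (EV n)) : Measure (ℝ × EV n) :=
  Measure.map (fun x => (gauge M x, outerNormal M x)) (volume.restrict M)

theorem measurable_pair {M : Set (EV n)} (hM : SymConvexBody M) :
    Measurable fun x => (gauge M x, outerNormal M x) :=
  hM.continuous_gauge.measurable.prodMk (measurable_outerNormal M)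

theorem jl_prod {M : Set (EV n)} (hM : SymConvexBody M) {s : Set ℝ} {ω : Set (EV n)}
    (hs : MeasurableSet s) (hω : MeasurableSet ω) : jl M (s ×ˢ ω) =
      Measure.map (gauge M) (volume.restrict (outerNormal M ⁻¹' ω ∩ M)) s := by
  rw [jl, Measure.map_apply (measurable_pair hM) (hs.prod hω),
    Measure.map_apply hM.continuous_gauge.measurable hs,
    Measure.restrict_apply (measurable_pair hM (hs.prod hω)),
    Measure.restrict_apply (hM.continuous_gauge.measurable hs), mk_preimage_prod, inter_assoc]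

theorem jl_eq (hn : 0 < n) {K M : Set (EV n)} (hK : SymConvexBody K) (hM : SymConvexBody M)
    {c : ℝ≥0∞} (h : coneVol M = c • coneVol K) : jl M = c • jl K := by
  have : IsFiniteMeasure (volume.restrict M) :=
    isFiniteMeasure_restrict.2 hM.isCompact.measure_lt_top.ne
  have : IsFiniteMeasure (jl M) := by unfold jl; infer_instance
  apply Measure.ext_prod
  intro s ω hs hω
  rw [Measure.smul_apply, jl_prod hM hs hω, jl_prod hK hs hω, ← Measure.smul_apply]
  congr 1
  have : IsFiniteMeasure (volume.restrict (outerNormal M ⁻¹' ω ∩ M)) :=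
    isFiniteMeasure_restrict.2
      ((measure_mono inter_subset_right).trans_lt hM.isCompact.measure_lt_top).ne
  apply Measure.ext_of_Iic
  intro r
  rw [Measure.smul_apply, Measure.map_apply hM.continuous_gauge.measurable measurableSet_Iic,
    Measure.map_apply hK.continuous_gauge.measurable measurableSet_Iic,
    Measure.restrict_apply (hM.continuous_gauge.measurable measurableSet_Iic),
    Measure.restrict_apply (hK.continuous_gauge.measurable measurableSet_Iic),
    vol_cone hn hM hω, vol_cone hn hK hω, h, Measure.smul_apply, smul_eq_mul, smul_eq_mul,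
    mul_left_comm]

end Vale.Agent.N227
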