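import Vale.Agent.P227.H368.Defs

/-! # P227: definitions used in the statement on equality cases -/

open MeasureTheory
open scoped ENNReal Pointwise

namespace Vale.Agent.N227

open Vale.Agent.P227

/-- Equality in the logarithmic Brunn-Minkowski inequality. -/
def EqBM {n : ℕ} (t : ℝ) (K L : Set (EuclideanSpace ℝ (Fin n))) : Prop :=
  volume (logComb t K L) = volume K ^ (1 - t) * volume L ^ t

/-- Equality in the logarithmic Minkowski inequality. -/
def EqMink {n : ℕ} (K L : Set (EuclideanSpace ℝ (Fin n))) : Prop :=
  (volume K).toReal * Real.log ((volume L).toReal / (volume K).toReal) =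
    n * ∫ u, Real.log (supportFn L u / supportFn K u) ∂(coneVol K)

/-- The normalized cone-volume measures of `K` and `L` are equal. -/
def SameCone {n : ℕ} (K L : Set (EuclideanSpace ℝ (Fin n))) : Prop :=
  (volume K)⁻¹ • coneVol K = (volume L)⁻¹ • coneVol L

/-- The cone-volume measure of `K` is absolutely continuous with respect to the spherical
Lebesgue measure. -/
def HasDensity {n : ℕ} (K : Set (EuclideanSpace ℝ (Fin n))) : Prop :=
  coneVol K ≪ Measure.map Subtype.val (volume : Measure (EuclideanSpace ℝ (Fin n))).toSphere

end Vale.Agent.N227
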