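import Vale.Agent.N227.Rigid

/-! # P227: the rigidity theorem -/

open MeasureTheory Set Metric Filter Topology
open scoped ENNReal NNReal Pointwise

namespace Vale.Agent.N227

open Vale.Agent.P227 Vale.Agent.P227.H368

variable {n : ℕ} {K L : Set (EV n)}

theorem rm_facts (hn : 0 < n) (hK : SymConvexBody K) {M : Set (EV n)} (hM : SymConvexBody M)
    {x : EV n} (hx : x ≠ 0) (hd : DifferentiableAt ℝ (gauge M) x) :
    ∃ r : ℝ, 0 < r ∧ Rm K M x = r • outerNormal M x ∧ Rm K M x ≠ 0 ∧
      ‖Rm K M x‖⁻¹ • Rm K M x = outerNormal M x ∧ supportFn K (Rm K M x) = gauge M x := by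
  obtain ⟨h1, -⟩ := outerNormal_eq hn hM hd
  have h0 := ne_zero_of_norm_one h1
  have qK := hK.supportFn_pos h0
  have hg := hM.gauge_pos hx
  have hr : 0 < gauge M x / supportFn K (outerNormal M x) := by positivity
  refine ⟨_, hr, rfl, smul_ne_zero hr.ne' h0, ?_, ?_⟩
  · rw [Rm, norm_smul, h1, mul_one, Real.norm_of_nonneg hr.le, smul_smul,
      inv_mul_cancel₀ hr.ne', one_smul]
  · rw [Rm, sf_smul hK _ hr, div_mul_cancel₀ _ qK.ne']

theorem ae_ne_zero (hn : 0 < n) (M : Set (EV n)) : ∀ᵐ x ∂(volume.restrict M), x ≠ 0 := by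
  have := nontriv hn
  apply ae_restrict_of_ae
  rw [ae_iff]
  simp

/-- **rigidity** -/
theorem rigid (hn : 0 < n) (hK : SymConvexBody K) (hL : SymConvexBody L) (h : nV K = nV L)
    (hac : coneVol K ≪ sph n) : ∃ c : ℝ, 0 < c ∧ L = c • K := by
  have hE := emink_of_nV hn hK hL h
  set σ := Real.log (evol L) - Real.log (evol K) with hσ
  have hM := logComb_scb hK hL
  -- good directions
  have hdir : ∀ᵐ u ∂(coneVol K), ‖u‖ = 1 ∧ Alx (supportFn K) u ∧ Alx (supportFn L) u ∧
      ∀ s : ℚ, 0 ≤ s → s ≤ 1 → supportFn (logComb s K L) u = fs K L s u := by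
    have h1 : ∀ᵐ u ∂(coneVol K), ∀ s : ℚ, 0 ≤ s → s ≤ 1 →
        Real.log (supportFn (logComb s K L) u / supportFn K u) =
          s * Real.log (supportFn L u / supportFn K u) := by
      rw [ae_all_iff]
      intro s
      by_cases hs : 0 ≤ s ∧ s ≤ 1
      · filter_upwards [(hE.comb hn hK hL (s := s) (by exact_mod_cast hs.1)
          (by exact_mod_cast hs.2)).2.2] with u hu _ _ using hu
      · exact Eventually.of_forall fun u s0 s1 => absurd ⟨s0, s1⟩ hs
    filter_upwards [ae_coneVol hn hK, hac.ae_le (ae_alx hn hK), hac.ae_le (ae_alx hn hL), h1]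
      with u hu a1 a2 a3
    refine ⟨hu, a1, a2, fun s s0 s1 => ?_⟩
    have hu0 := ne_zero_of_norm_one hu
    have qK := hK.supportFn_pos hu0
    have qL := hL.supportFn_pos hu0
    have qM := (hM s).supportFn_pos hu0
    have a4 := a3 s s0 s1
    rw [Real.log_div qM.ne' qK.ne', Real.log_div qL.ne' qK.ne'] at a4
    rw [← Real.exp_log qM, fs, lratio]
    congr 1
    linarith
  obtain ⟨N, hN1, hNm, hN0⟩ := exists_measurable_superset_of_null (ae_iff.1 hdir)
  have hΩ : ∀ u, u ∉ N → ‖u‖ = 1 ∧ Alx (supportFn K) u ∧ Alx (supportFn L) u ∧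
      ∀ s : ℚ, 0 ≤ s → s ≤ 1 → supportFn (logComb s K L) u = fs K L s u := by
    intro u hu
    by_contra hc
    exact hu (hN1 hc)
  set G0 : Set (EV n) := {y | y ≠ 0 ∧ supportFn K y ≤ 1 ∧ ‖y‖⁻¹ • y ∉ N} with hG0
  have mG0 : MeasurableSet G0 :=
    (measurableSet_singleton _).compl.inter
      ((measurableSet_le hK.continuous_supportFn.measurable measurable_const).inter
        ((measurable_norm.inv.smul measurable_id) hNm).compl)
  have gG0 : ∀ y ∈ G0, Alx (supportFn K) y ∧ Alx (supportFn L) y ∧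
      ∀ s : ℚ, 0 ≤ s → s ≤ 1 → Good K L s y := by
    rintro y ⟨y0, -, y2⟩
    obtain ⟨a1, a2, a3, a4⟩ := hΩ _ y2
    have hp := norm_pos_iff.2 y0
    rw [← smul_unit y0]
    exact ⟨a2.smul (sf_smul hK) hp, a3.smul (sf_smul hL) hp, fun s s0 s1 =>
      Good.smul hK hL hp ⟨ne_zero_of_norm_one a1, a2.1, a3.1, a4 s s0 s1⟩⟩
  set Gs : ℚ → Set (EV n) := fun s =>
    G0 ∩ Th K L s ⁻¹' {x | DifferentiableAt ℝ (gauge (logComb s K L)) x} with hGs
  have mGs : ∀ s, MeasurableSet (Gs s) := fun s =>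
    mG0.inter (measurable_Th hK hL s (measurableSet_of_differentiableAt ℝ _))
  have hcv : ∀ s : ℚ, 0 ≤ s → s ≤ 1 →
      coneVol (logComb s K L) = ENNReal.ofReal (Real.exp (σ * s)) • coneVol K :=
    fun s s0 s1 => coneVol_comb hn hK hL hE (by exact_mod_cast s0) (by exact_mod_cast s1)
  have fGs : ∀ s : ℚ, 0 ≤ s → s ≤ 1 → ∀ᵐ y ∂(mm K K), y ∈ Gs s := by
    intro s s0 s1
    have h1 : ∀ᵐ y ∂(mm K (logComb s K L)), y ∈ Gs s := by
      refine (ae_map_iff (p := fun y => y ∈ Gs s) (measurable_Rm hK (hM s)).aemeasurable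
        (mGs s)).2 ?_
      have h2 : ∀ᵐ u ∂(coneVol (logComb s K L)), u ∉ N := by
        rw [hcv s s0 s1]
        exact Measure.ae_smul_measure (measure_eq_zero_iff_ae_notMem.1 hN0) _
      filter_upwards [ae_of_ae_map (measurable_outerNormal _).aemeasurable h2, ae_ne_zero hn _,
        ae_restrict_of_ae (hM s).ae_differentiable,
        ae_restrict_mem (hM s).isCompact.measurableSet] with x a1 a2 a3 a4
      obtain ⟨r, hr, b1, b2, b3, b4⟩ := rm_facts hn hK (hM s) a2 a3
      have b5 : Rm K (logComb s K L) x ∈ G0 :=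
        ⟨b2, b4 ▸ (mem_iff_gauge (hM s) x).1 a4, b3 ▸ a1⟩
      refine ⟨b5, ?_⟩
      rw [mem_preimage, th_rm hn hK hL a3 ((gG0 _ b5).2.2 s s0 s1)]
      exact a3
    rw [mm_eq hn hK (hM s) (hcv s s0 s1), Measure.ae_ennreal_smul_measure_iff] at h1
    · exact h1
    · exact (ENNReal.ofReal_pos.2 (Real.exp_pos _)).ne'
  set G : Set (EV n) := ⋂ s : ℚ, ⋂ (_ : 0 ≤ s), ⋂ (_ : s ≤ 1), Gs s with hG
  have mG : MeasurableSet G :=
    MeasurableSet.iInter fun s => MeasurableSet.iInter fun _ => MeasurableSet.iInter fun _ => mGs s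
  have memG : ∀ y, y ∈ G ↔ ∀ s : ℚ, 0 ≤ s → s ≤ 1 → y ∈ Gs s := fun y => by
    simp only [hG, mem_iInter]
  have fG : ∀ᵐ y ∂(mm K K), y ∈ G := by
    simp only [memG]
    rw [ae_all_iff]
    intro s
    by_cases hs : 0 ≤ s ∧ s ≤ 1
    · filter_upwards [fGs s hs.1 hs.2] with y hy _ _ using hy
    · exact Eventually.of_forall fun u s0 s1 => absurd ⟨s0, s1⟩ hs
  have GG0 : ∀ y ∈ G, y ∈ G0 := fun y hy => ((memG y).1 hy 0 le_rfl zero_le_one).1
  -- derivatives
  have hder : ∀ y, ∃ B0 B1 B2 : EV n →L[ℝ] EV n, y ∈ G → ∀ s : ℝ,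
      HasFDerivWithinAt (Th K L s) (Real.exp (2 * Real.log (supportFn K y) + s * lratio K L y) •
        (B0 + s • B1 + s ^ 2 • B2)) G y := by
    intro y
    by_cases hy : y ∈ G
    · obtain ⟨a1, a2, -⟩ := gG0 y (GG0 y hy)
      have y0 := (GG0 y hy).1
      have qK := (hK.supportFn_pos y0).ne'
      have qL := (hL.supportFn_pos y0).ne'
      have d1 : DifferentiableWithinAt ℝ (lg K) G y :=
        (a1.1.inv qK).differentiableWithinAt.smul
          (a1.2.mono fun z hz => (gG0 z (GG0 z hz)).1.1)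
      have d2 : DifferentiableWithinAt ℝ (lg L) G y :=
        (a2.1.inv qL).differentiableWithinAt.smul
          (a2.2.mono fun z hz => (gG0 z (GG0 z hz)).2.1.1)
      obtain ⟨B0, B1, B2, hB⟩ := deriv_form (w := fun y => 2 * Real.log (supportFn K y))
        (g := lratio K L) (p := lg K) (q := fun y => lg L y - lg K y) (G := G) (y := y)
        ((a1.1.log qK).const_mul 2).differentiableWithinAt
        ((a2.1.log qL).sub (a1.1.log qK)).differentiableWithinAt d1 (d2.sub d1)
      exact ⟨B0, B1, B2, fun _ => hB⟩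
    · exact ⟨0, 0, 0, fun h => absurd h hy⟩
  choose B0 B1 B2 hB using hder
  set F : ℚ → EV n → ℝ≥0∞ := fun s y => ENNReal.ofReal
    |(Real.exp (2 * Real.log (supportFn K y) + s * lratio K L y) •
        (B0 y + (s : ℝ) • B1 y + (s : ℝ) ^ 2 • B2 y)).det| with hF
  have hFm : ∀ s, AEMeasurable (F s) (volume.restrict G) := fun s =>
    aemeasurable_ofReal_abs_det_fderivWithin volume mG fun y hy => hB y hy s
  have harea : ∀ s : ℚ, 0 ≤ s → s ≤ 1 → ∀ A, MeasurableSet A → A ⊆ G →
      ∫⁻ y in A, F s y = ENNReal.ofReal (Real.exp (σ * s)) * mm K K A := by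
    intro s s0 s1 A hA hAG
    rw [area hn hK hL hA (fun y hy => (hB y (hAG hy) s).mono hAG) (fun y hy =>
      ⟨(gG0 y (GG0 y (hAG hy))).2.2 s s0 s1, (GG0 y (hAG hy)).2.1,
        ((memG y).1 (hAG hy) s s0 s1).2⟩), mm_eq hn hK (hM s) (hcv s s0 s1), Measure.smul_apply,
      smul_eq_mul]
  have harea0 : ∀ A, MeasurableSet A → A ⊆ G → ∫⁻ y in A, F 0 y = mm K K A := by
    intro A hA hAG
    rw [harea 0 le_rfl zero_le_one A hA hAG]
    simp
  have hae : ∀ᵐ y ∂(volume.restrict G), ∀ s : ℚ, 0 ≤ s → s ≤ 1 →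
      F s y = ENNReal.ofReal (Real.exp (σ * s)) * F 0 y := by
    rw [ae_all_iff]
    intro s
    by_cases hs : 0 ≤ s ∧ s ≤ 1
    · have := ae_eq_of_forall_setLIntegral_eq_of_sigmaFinite₀ (hFm s)
        ((hFm 0).const_mul (ENNReal.ofReal (Real.exp (σ * s)))) (by
          intro A hA _
          rw [Measure.restrict_restrict hA, lintegral_const_mul' _ _ ENNReal.ofReal_ne_top,
            harea s hs.1 hs.2 _ (hA.inter mG) inter_subset_right,
            harea0 _ (hA.inter mG) inter_subset_right])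
      filter_upwards [this] with y hy _ _ using hy
    · exact Eventually.of_forall fun u s0 s1 => absurd ⟨s0, s1⟩ hs
  have hzero : ∀ᵐ y ∂(volume.restrict G), n * lratio K L y ≠ σ → F 0 y = 0 := by
    filter_upwards [hae] with y hy hne
    obtain ⟨P, hP⟩ := det_poly (B0 y) (B1 y) (B2 y)
    have hFe : ∀ s : ℚ, F s y = ENNReal.ofReal
        (Real.exp (n * (2 * Real.log (supportFn K y) + s * lratio K L y)) * |P.eval (s : ℝ)|) := by
      intro s
      simp only [hF]
      rw [ContinuousLinearMap.det, ContinuousLinearMap.toLinearMap_smul, LinearMap.det_smul,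
        finrank_euclideanSpace_fin, ← hP, abs_mul, abs_of_pos (by positivity), Real.exp_nat_mul]
    by_contra hc
    have h0 : P.eval 0 ≠ 0 := by
      intro h0
      apply hc
      rw [hFe, Rat.cast_zero, h0, abs_zero, mul_zero, ENNReal.ofReal_zero]
    apply hne
    have := poly_exp (c := σ - n * lratio K L y) h0 (by
      intro s s0 s1
      have h1 := hy s s0 s1
      rw [hFe, hFe, ← ENNReal.ofReal_mul (Real.exp_pos _).le,
        ENNReal.ofReal_eq_ofReal_iff (by positivity) (by positivity), Rat.cast_zero] at h1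
      apply mul_left_cancel₀
        (Real.exp_pos (n * (2 * Real.log (supportFn K y) + s * lratio K L y))).ne'
      rw [h1, ← mul_assoc, ← mul_assoc, ← Real.exp_add, ← Real.exp_add]
      congr 2
      ring)
    linarith
  have mB : MeasurableSet {y : EV n | n * lratio K L y ≠ σ} :=
    (measurableSet_eq_fun ((measurable_lratio hK hL).const_mul _) measurable_const).compl
  have hB0 : mm K K ({y : EV n | n * lratio K L y ≠ σ} ∩ G) = 0 := by
    rw [← harea0 _ (mB.inter mG) inter_subset_right, ← Measure.restrict_restrict mB,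
      ← lintegral_zero (μ := (volume.restrict G).restrict {y : EV n | n * lratio K L y ≠ σ})]
    apply lintegral_congr_ae
    filter_upwards [ae_restrict_of_ae hzero, ae_restrict_mem mB] with y h1 h2 using h1 h2
  have hfin : ∀ᵐ y ∂(mm K K), n * lratio K L y = σ := by
    filter_upwards [fG, measure_eq_zero_iff_ae_notMem.1 hB0] with y h1 h2
    by_contra hc
    exact h2 ⟨hc, h1⟩
  apply dilate_of_ae hn hK hL
  rw [coneVol, ae_map_iff (measurable_outerNormal K).aemeasurable
    (measurableSet_eq_fun ((measurable_lratio hK hL).const_mul _) measurable_const)]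
  filter_upwards [ae_of_ae_map (measurable_Rm hK hK).aemeasurable hfin, ae_ne_zero hn K,
    ae_restrict_of_ae hK.ae_differentiable] with x a1 a2 a3
  obtain ⟨r, hr, b1, -⟩ := rm_facts hn hK hK a2 a3
  rwa [b1, lratio_smul hK hL hr (ne_zero_of_norm_one (outerNormal_eq hn hK a3).1)] at a1

theorem nV_smul (hn : 0 < n) (hK : SymConvexBody K) {c : ℝ} (hc : 0 < c) : nV K = nV (c • K) := by
  have hL := H880.body_smul hK hc
  have pK := evol_pos hK
  apply Emink.nV_eq hn hK hL
  have := finite_coneVol hK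
  have h1 : ∫ u, Real.log (supportFn (c • K) u / supportFn K u) ∂(coneVol K) =
      ∫ _u, Real.log c ∂(coneVol K) := by
    apply integral_congr_ae
    filter_upwards [ae_coneVol hn hK] with u hu
    rw [supportFn_dilate hK hc,
      mul_div_cancel_right₀ _ (hK.supportFn_pos (ne_zero_of_norm_one hu)).ne']
  rw [Emink, h1, integral_const, Measure.real, coneVol_univ, evol_smul K hc.le,
    mul_div_cancel_right₀ _ pK.ne', Real.log_pow, smul_eq_mul]
  unfold evol
  ring

/-- uniqueness in the even logarithmic Minkowski problem -/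
theorem unique (hn : 0 < n) (hK : SymConvexBody K) (hL : SymConvexBody L)
    (hac : coneVol K ≪ sph n) (h : coneVol K = coneVol L) : K = L := by
  have hv : volume K = volume L := by rw [← coneVol_univ, h, coneVol_univ]
  obtain ⟨c, hc, rfl⟩ := rigid hn hK hL (by rw [nV, nV, h, hv]) hac
  have h1 : evol K = evol (c • K) := congrArg ENNReal.toReal hv
  rw [evol_smul K hc.le] at h1
  have h2 : c ^ n = 1 := by
    have := evol_pos hK
    apply mul_right_cancel₀ this.ne'
    rw [← h1, one_mul]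
  rw [(pow_eq_one_iff_of_nonneg hc.le hn.ne').1 h2, one_smul]

/-- bodies with support function of class `C²` have absolutely continuous cone-volume measure -/
theorem ac_of_contDiff (hn : 0 < n) (hK : SymConvexBody K)
    (h : ContDiffOn ℝ 2 (supportFn K) {0}ᶜ) : coneVol K ≪ sph n := by
  refine Measure.AbsolutelyContinuous.mk fun N hN h0 => ?_
  have ho : IsOpen ({0}ᶜ : Set (EV n)) := isOpen_compl_singleton
  have d1 : ∀ y : EV n, y ≠ 0 → DifferentiableAt ℝ (supportFn K) y := fun y hy =>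
    (h.contDiffAt (ho.mem_nhds hy)).differentiableAt (by norm_num)
  have d2 : ∀ y : EV n, y ≠ 0 → DifferentiableAt ℝ (gradient (supportFn K)) y := fun y hy =>
    (InnerProductSpace.toDual ℝ (EV n)).symm.toContinuousLinearEquiv.differentiableAt.comp y
      (((h.contDiffAt (ho.mem_nhds hy)).fderiv_right (m := 1) (by norm_num)).differentiableAt
        (by norm_num))
  have e : logComb 0 K K = K := (H880.logComb_self hK le_rfl zero_le_one).antisymm
    (H880.subset_wulff hK.isCompact fun u _ => by simp)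
  have dT : DifferentiableOn ℝ (Th K K 0) ({y : EV n | ‖y‖⁻¹ • y ∈ N} ∩ {0}ᶜ) := by
    rintro y ⟨-, hy⟩
    have qK := (hK.supportFn_pos hy).ne'
    have d3 : DifferentiableAt ℝ (lg K) y := ((d1 y hy).inv qK).smul (d2 y hy)
    exact (((((d1 y hy).log qK).const_mul 2).add
      ((((d1 y hy).log qK).sub ((d1 y hy).log qK)).const_mul 0)).exp.smul
      (d3.add ((d3.sub d3).const_smul (0 : ℝ)))).differentiableWithinAt
  have h1 := addHaar_image_eq_zero_of_differentiableOn_of_addHaar_eq_zero volume dT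
    (measure_mono_null inter_subset_left (cone_null hn hN h0))
  rw [coneVol, Measure.map_apply (measurable_outerNormal K) hN]
  rw [measure_eq_zero_iff_ae_notMem] at h1 ⊢
  filter_upwards [ae_restrict_of_ae h1, ae_ne_zero hn K,
    ae_restrict_of_ae hK.ae_differentiable] with x a1 a2 a3 a4
  obtain ⟨r, hr, b1, b2, b3, b4⟩ := rm_facts hn hK hK a2 a3
  refine a1 ⟨Rm K K x, ⟨by rw [mem_ofPred_eq, b3]; exact a4, b2⟩, ?_⟩
  have := th_rm hn hK hK (s := 0) (x := x) (by rwa [e]) (by
    rw [e]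
    refine ⟨b2, d1 _ b2, d1 _ b2, ?_⟩
    rw [e, fs, zero_mul, add_zero, Real.exp_log (hK.supportFn_pos b2)])
  rwa [e] at this

end Vale.Agent.N227
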