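import Vale.Agent.N227.Cone

/-! # P227: rigidity. If the cone-volume measures of `K` and `L` are proportional and
absolutely continuous then `K` and `L` are dilates of each other. -/

open MeasureTheory Set Metric Filter Topology
open scoped ENNReal NNReal Pointwise

namespace Vale.Agent.N227

open Vale.Agent.P227 Vale.Agent.P227.H368

variable {n : ℕ}

/-- the geometric mean of the support functions -/
noncomputable def fs (K L : Set (EV n)) (s : ℝ) (y : EV n) : ℝ :=
  Real.exp (Real.log (supportFn K y) + s * lratio K L y)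

/-- logarithmic gradient of the support function -/
noncomputable def lg (K : Set (EV n)) (y : EV n) : EV n :=
  (supportFn K y)⁻¹ • gradient (supportFn K) y

/-- the map `h_K ∇ f_s` -/
noncomputable def Th (K L : Set (EV n)) (s : ℝ) (y : EV n) : EV n :=
  Real.exp (2 * Real.log (supportFn K y) + s * lratio K L y) • (lg K y + s • (lg L y - lg K y))

/-- the inverse of `Th` -/
noncomputable def Rm (K M : Set (EV n)) (x : EV n) : EV n :=
  (gauge M x / supportFn K (outerNormal M x)) • outerNormal M x

variable {K L : Set (EV n)}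

theorem lratio_smul (hK : SymConvexBody K) (hL : SymConvexBody L) {r : ℝ} (hr : 0 < r)
    {y : EV n} (hy : y ≠ 0) : lratio K L (r • y) = lratio K L y := by
  have qK := hK.supportFn_pos hy
  have qL := hL.supportFn_pos hy
  rw [lratio, lratio, sf_smul hK r hr, sf_smul hL r hr, Real.log_mul hr.ne' qK.ne',
    Real.log_mul hr.ne' qL.ne']
  ring

theorem fs_smul (hK : SymConvexBody K) (hL : SymConvexBody L) (s : ℝ) {r : ℝ} (hr : 0 < r)
    {y : EV n} (hy : y ≠ 0) : fs K L s (r • y) = r * fs K L s y := by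
  have qK := hK.supportFn_pos hy
  rw [fs, fs, lratio_smul hK hL hr hy, sf_smul hK r hr, Real.log_mul hr.ne' qK.ne', add_assoc,
    Real.exp_add, Real.exp_log hr]

theorem norm_unit {y : EV n} (hy : y ≠ 0) : ‖‖y‖⁻¹ • y‖ = 1 := by
  have : 0 < ‖y‖ := norm_pos_iff.2 hy
  rw [norm_smul, norm_inv, norm_norm]
  field_simp

theorem smul_unit {y : EV n} (hy : y ≠ 0) : ‖y‖ • ‖y‖⁻¹ • y = y := by
  rw [smul_smul, mul_inv_cancel₀ (norm_pos_iff.2 hy).ne', one_smul]

theorem inner_le_fs (hK : SymConvexBody K) (hL : SymConvexBody L) (s : ℝ) {x w : EV n}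
    (hx : x ∈ logComb s K L) (hw : w ≠ 0) : inner ℝ x w ≤ fs K L s w := by
  have h1 := norm_unit hw
  have h0 := ne_zero_of_norm_one h1
  have h2 := hx _ h1
  have qK := hK.supportFn_pos h0
  have qL := hL.supportFn_pos h0
  have h3 : supportFn K (‖w‖⁻¹ • w) ^ (1 - s) * supportFn L (‖w‖⁻¹ • w) ^ s =
      fs K L s (‖w‖⁻¹ • w) := by
    rw [fs, lratio, Real.rpow_def_of_pos qK, Real.rpow_def_of_pos qL, ← Real.exp_add]
    congr 1
    ring
  beta_reduce at h2
  rw [h3] at h2
  rw [← smul_unit hw, inner_smul_right, fs_smul hK hL s (norm_pos_iff.2 hw) h0]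
  exact mul_le_mul_of_nonneg_left h2 (norm_nonneg _)

/-- good points for the body `logComb s K L` -/
structure Good (K L : Set (EV n)) (s : ℝ) (y : EV n) : Prop where
  ne : y ≠ 0
  dK : DifferentiableAt ℝ (supportFn K) y
  dL : DifferentiableAt ℝ (supportFn L) y
  eq : supportFn (logComb s K L) y = fs K L s y

theorem Good.smul (hK : SymConvexBody K) (hL : SymConvexBody L) {s r : ℝ} (hr : 0 < r)
    {y : EV n} (hy : Good K L s y) : Good K L s (r • y) where
  ne := smul_ne_zero hr.ne' hy.ne
  dK := diff_hom (sf_smul hK) hr hy.dK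
  dL := diff_hom (sf_smul hL) hr hy.dL
  eq := by rw [sf_smul (logComb_scb hK hL s) r hr, fs_smul hK hL s hr hy.ne, hy.eq]

/-- the support point in a good direction -/
theorem Good.supp (hK : SymConvexBody K) (hL : SymConvexBody L) {s : ℝ} {y : EV n}
    (hy : Good K L s y) {x : EV n} (hx : x ∈ logComb s K L)
    (hxy : inner ℝ x y = supportFn (logComb s K L) y) : Th K L s y = supportFn K y • x := by
  have qK := hK.supportFn_pos hy.ne
  have qL := hL.supportFn_pos hy.ne
  have dK := hy.dK.hasFDerivAt.log qK.ne'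
  have dL := hy.dL.hasFDerivAt.log qL.ne'
  have d := ((dK.add ((dL.sub dK).const_mul s)).exp).sub (innerSL ℝ x).hasFDerivAt
  have hmin : IsLocalMin (fun w => fs K L s w - inner ℝ x w) y := by
    filter_upwards [isOpen_ne.mem_nhds hy.ne] with w hw
    have := inner_le_fs hK hL s hx hw
    rw [hxy, hy.eq]
    linarith
  have h0 := hmin.hasFDerivAt_eq_zero d
  have e : Real.exp (2 * Real.log (supportFn K y) + s * lratio K L y) =
      supportFn K y * fs K L s y := by
    rw [fs, two_mul, add_assoc, Real.exp_add, Real.exp_log qK]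
  rw [Th, e, mul_smul]
  congr 1
  apply ext_inner_right ℝ
  intro v
  have h1 := congrArg (fun T : EV n →L[ℝ] ℝ => T v) h0
  simp only [sub_apply, smul_apply, add_apply, innerSL_apply_apply, zero_apply, smul_eq_mul,
    Pi.add_apply, Pi.sub_apply] at h1
  simp only [lg, real_inner_smul_left, inner_add_left, inner_sub_left, inner_gradient]
  rw [fs, lratio]
  linarith

theorem th_rm (hn : 0 < n) (hK : SymConvexBody K) (hL : SymConvexBody L) {s : ℝ} {x : EV n}
    (hd : DifferentiableAt ℝ (gauge (logComb s K L)) x)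
    (hy : Good K L s (Rm K (logComb s K L) x)) : Th K L s (Rm K (logComb s K L) x) = x := by
  have hM := logComb_scb hK hL s
  set M := logComb s K L
  obtain ⟨h1, h2⟩ := outerNormal_eq hn hM hd
  have qK := hK.supportFn_pos (ne_zero_of_norm_one h1)
  have hx : x ≠ 0 := by
    intro h0
    apply hy.ne
    rw [Rm, h0, gauge_zero, zero_div, zero_smul]
  have hg := hM.gauge_pos hx
  have h3 : (gauge M x)⁻¹ • x ∈ M := by
    rw [mem_iff_gauge hM, gauge_smul_of_nonneg (inv_pos.2 hg).le, smul_eq_mul,
      inv_mul_cancel₀ hg.ne']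
  rw [hy.supp hK hL h3, Rm, sf_smul hK _ (by positivity), div_mul_cancel₀ _ qK.ne', smul_smul,
    mul_inv_cancel₀ hg.ne', one_smul]
  rw [Rm, sf_smul hM _ (by positivity), real_inner_smul_left, inner_smul_right, h2]
  field_simp

theorem rm_th (hn : 0 < n) (hK : SymConvexBody K) (hL : SymConvexBody L) {s : ℝ} {y : EV n}
    (hy : Good K L s y) (hd : DifferentiableAt ℝ (gauge (logComb s K L)) (Th K L s y)) :
    Rm K (logComb s K L) (Th K L s y) = y ∧
      gauge (logComb s K L) (Th K L s y) = supportFn K y := by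
  have hM := logComb_scb hK hL s
  set M := logComb s K L
  obtain ⟨x, hx, hxy⟩ := exists_supportFn hM.isCompact ⟨0, hM.zero_mem⟩ y
  have qK := hK.supportFn_pos hy.ne
  have hy0 : 0 < ‖y‖ := norm_pos_iff.2 hy.ne
  have hu := norm_unit hy.ne
  have qM := hM.supportFn_pos (ne_zero_of_norm_one hu)
  have h1 : inner ℝ x (‖y‖⁻¹ • y) = supportFn M (‖y‖⁻¹ • y) := by
    rw [inner_smul_right, hxy, sf_smul hM _ (inv_pos.2 hy0)]
  have h2 : gauge M x = 1 := by
    apply le_antisymm ((mem_iff_gauge hM x).1 hx)
    have := (hM.exists_normal hn x).1 _ hu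
    rw [h1] at this
    exact le_of_mul_le_mul_right (by rwa [one_mul]) qM
  have h3 : gauge M (Th K L s y) = supportFn K y := by
    rw [hy.supp hK hL hx hxy, gauge_smul_of_nonneg qK.le, h2, smul_eq_mul, mul_one]
  obtain ⟨h4, h5⟩ := outerNormal_eq hn hM hd
  have h6 : outerNormal M (Th K L s y) = ‖y‖⁻¹ • y := by
    apply hM.normal_unique hn hd h4 hu h5
    rw [h3, hy.supp hK hL hx hxy, real_inner_smul_left, h1]
  refine ⟨?_, h3⟩
  rw [Rm, h6, h3, sf_smul hK _ (inv_pos.2 hy0), smul_smul]
  have : supportFn K y / (‖y‖⁻¹ * supportFn K y) * ‖y‖⁻¹ = 1 := by field_simp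
  rw [this, one_smul]

theorem measurable_grad (a : EV n → ℝ) : Measurable (gradient a) :=
  (InnerProductSpace.toDual ℝ (EV n)).symm.continuous.measurable.comp (measurable_fderiv ℝ a)

theorem measurable_lratio (hK : SymConvexBody K) (hL : SymConvexBody L) :
    Measurable (lratio K L) :=
  hL.continuous_supportFn.measurable.log.sub hK.continuous_supportFn.measurable.log

theorem measurable_Th (hK : SymConvexBody K) (hL : SymConvexBody L) (s : ℝ) :
    Measurable (Th K L s) := by
  have m1 : Measurable (lg K) := hK.continuous_supportFn.measurable.inv.smul (measurable_grad _)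
  have m2 : Measurable (lg L) := hL.continuous_supportFn.measurable.inv.smul (measurable_grad _)
  exact ((hK.continuous_supportFn.measurable.log.const_mul 2).add
    ((measurable_lratio hK hL).const_mul s)).exp.smul (m1.add ((m2.sub m1).const_smul s))

theorem measurable_Rm (hK : SymConvexBody K) {M : Set (EV n)} (hM : SymConvexBody M) :
    Measurable (Rm K M) :=
  (hM.continuous_gauge.measurable.div
    (hK.continuous_supportFn.measurable.comp (measurable_outerNormal M))).smul
    (measurable_outerNormal M)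

/-- the image of the volume of `M` under `Rm K M` -/
noncomputable def mm (K M : Set (EV n)) : Measure (EV n) :=
  Measure.map (Rm K M) (volume.restrict M)

theorem mm_eq (hn : 0 < n) (hK : SymConvexBody K) {M : Set (EV n)} (hM : SymConvexBody M)
    {c : ℝ≥0∞} (h : coneVol M = c • coneVol K) : mm K M = c • mm K K := by
  have hΦ : Measurable fun p : ℝ × EV n => (p.1 / supportFn K p.2) • p.2 :=
    (measurable_fst.div (hK.continuous_supportFn.measurable.comp measurable_snd)).smul
      measurable_snd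
  have e : ∀ N : Set (EV n), SymConvexBody N →
      mm K N = Measure.map (fun p : ℝ × EV n => (p.1 / supportFn K p.2) • p.2) (jl N) := by
    intro N hN
    rw [jl, Measure.map_map hΦ (measurable_pair hN)]
    rfl
  rw [e M hM, e K hK, jl_eq hn hK hM h, Measure.map_smul]

/-- area formula -/
theorem area (hn : 0 < n) (hK : SymConvexBody K) (hL : SymConvexBody L) {s : ℝ}
    {A : Set (EV n)} (hA : MeasurableSet A) {T : EV n → EV n →L[ℝ] EV n}
    (hT : ∀ y ∈ A, HasFDerivWithinAt (Th K L s) (T y) A y)
    (hG : ∀ y ∈ A, Good K L s y ∧ supportFn K y ≤ 1 ∧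
      DifferentiableAt ℝ (gauge (logComb s K L)) (Th K L s y)) :
    ∫⁻ y in A, ENNReal.ofReal |(T y).det| = mm K (logComb s K L) A := by
  have hM := logComb_scb hK hL s
  have hinj : InjOn (Th K L s) A := by
    intro y hy z hz h
    rw [← (rm_th hn hK hL (hG y hy).1 (hG y hy).2.2).1, h,
      (rm_th hn hK hL (hG z hz).1 (hG z hz).2.2).1]
  rw [lintegral_abs_det_fderiv_eq_addHaar_image volume hA hT hinj, mm,
    Measure.map_apply (measurable_Rm hK hM) hA,
    Measure.restrict_apply (measurable_Rm hK hM hA)]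
  apply le_antisymm
  · apply measure_mono
    rintro _ ⟨y, hy, rfl⟩
    obtain ⟨h1, h2⟩ := rm_th hn hK hL (hG y hy).1 (hG y hy).2.2
    refine ⟨?_, (mem_iff_gauge hM _).2 (h2 ▸ (hG y hy).2.1)⟩
    rw [mem_preimage, h1]
    exact hy
  · apply measure_mono_ae
    filter_upwards [hM.ae_differentiable] with x hx hx2
    exact ⟨_, hx2.1, th_rm hn hK hL hx (hG _ hx2.1).1⟩

theorem dilate_of_ae (hn : 0 < n) (hK : SymConvexBody K) (hL : SymConvexBody L)
    (h : ∀ᵐ u ∂(coneVol K), n * lratio K L u = Real.log (evol L) - Real.log (evol K)) :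
    ∃ c : ℝ, 0 < c ∧ L = c • K := by
  have hn' : (0 : ℝ) < n := by exact_mod_cast hn
  have pK := evol_pos hK
  have pL := evol_pos hL
  set c := Real.exp ((Real.log (evol L) - Real.log (evol K)) / n) with hc
  have hcpos : 0 < c := Real.exp_pos _
  have hae : ∀ᵐ u ∂(coneVol K), supportFn L u ≤ c * supportFn K u := by
    filter_upwards [h, ae_coneVol hn hK] with u hu hu1
    have hu0 := ne_zero_of_norm_one hu1
    have qK := hK.supportFn_pos hu0
    have qL := hL.supportFn_pos hu0
    rw [hc, ← hu, mul_div_cancel_left₀ _ hn'.ne', lratio, Real.exp_sub, Real.exp_log qK,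
      Real.exp_log qL, div_mul_cancel₀ _ qK.ne']
  have hsub : L ⊆ c • K := by
    intro y hy
    have h1 := gauge_le_of_ae hn hK hL hae hy
    rw [mem_smul_set_iff_inv_smul_mem₀ hcpos.ne', mem_iff_gauge hK,
      gauge_smul_of_nonneg (by positivity), smul_eq_mul, inv_mul_le_iff₀ hcpos, mul_one]
    exact h1
  refine ⟨c, hcpos, eq_of_subset_of_evol hL (H880.body_smul hK hcpos) hsub ?_⟩
  rw [evol_smul K hcpos.le, hc, ← Real.exp_nat_mul, mul_div_cancel₀ _ hn'.ne', Real.exp_sub,
    Real.exp_log pK, Real.exp_log pL, div_mul_cancel₀ _ pK.ne']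

theorem coneVol_comb (hn : 0 < n) (hK : SymConvexBody K) (hL : SymConvexBody L)
    (h : Emink K L) {s : ℝ} (s0 : 0 ≤ s) (s1 : s ≤ 1) : coneVol (logComb s K L) =
      ENNReal.ofReal (Real.exp ((Real.log (evol L) - Real.log (evol K)) * s)) • coneVol K := by
  have hM := logComb_scb hK hL s
  obtain ⟨h1, h2, -⟩ := h.comb hn hK hL s0 s1
  have h3 := h2.nV_eq hn hK hM
  have pK := evol_pos hK
  have pM := evol_pos hM
  have e : ENNReal.ofReal (Real.exp ((Real.log (evol L) - Real.log (evol K)) * s)) =
      volume (logComb s K L) * (volume K)⁻¹ := by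
    rw [← ENNReal.ofReal_toReal hM.isCompact.measure_lt_top.ne,
      ← ENNReal.ofReal_toReal hK.isCompact.measure_lt_top.ne]
    change _ = ENNReal.ofReal (evol _) * (ENNReal.ofReal (evol _))⁻¹
    rw [← ENNReal.ofReal_inv_of_pos pK, ← ENNReal.ofReal_mul pM.le, ← Real.exp_log pM,
      ← Real.exp_log pK, h1, ← Real.exp_neg, ← Real.exp_add, Real.log_exp]
    congr 2
    ring
  rw [e, mul_smul]
  change _ = _ • nV K
  rw [h3, nV, smul_smul, ENNReal.mul_inv_cancel (vol_ne_zero hM) hM.isCompact.measure_lt_top.ne,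
    one_smul]

end Vale.Agent.N227
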